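import Vale.Agent.P267W.Str
import Vale.Agent.P267W.Model
import Vale.Agent.P267X.XC
import Vale.Agent.P267B.BA

/-! P267, compact surfaces: the Lefschetz theorem on classes of type (1,1) when the geometric
genus vanishes. -/

open scoped Manifold ContDiff Topology
open Filter Metric Set

noncomputable section

namespace Vale.Agent.P267W

open Vale.Agent.P267

set_option linter.unusedSectionVars false

variable {X : Type} [TopologicalSpace X]

/-- The shift of the trivial cover. -/
def sh (X : Type) [TopologicalSpace X] : X × ℤ ≃ₜ X × ℤ :=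
  (Homeomorph.refl X).prodCongr (Homeomorph.addRight 1)

theorem sh_gz (k : ℤ) (p : X × ℤ) : (sh X ^ k) p = (p.1, p.2 + k) := by
  induction k using Int.induction_on generalizing p with
  | zero => simp
  | succ k ih =>
    rw [zpow_add_one, Homeomorph.mul_apply, ih]
    exact Prod.ext rfl (by change p.2 + 1 + k = p.2 + (k + 1); ring)
  | pred k ih =>
    rw [zpow_sub_one, Homeomorph.mul_apply, ih]
    exact Prod.ext rfl (by change p.2 + -1 + -(k : ℤ) = p.2 + (-k - 1); ring)

theorem lev_ev (p : X × ℤ) : ∀ᶠ q in 𝓝 p, q.2 = p.2 :=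
  continuous_snd.continuousAt.eventually (by
    rw [nhds_discrete]
    exact eventually_pure.2 rfl : ∀ᶠ k in 𝓝 p.2, k = p.2)

theorem fst_loc : IsLocalHomeomorph (Prod.fst : X × ℤ → X) := fun p =>
  ⟨{ toFun := Prod.fst, invFun := fun y => (y, p.2), source := {q | q.2 = p.2}, target := univ
     map_source' := fun _ _ => mem_univ _
     map_target' := fun _ _ => rfl
     left_inv' := fun q hq => Prod.ext rfl (Eq.symm hq)
     right_inv' := fun _ _ => rfl
     open_source := (isOpen_discrete {p.2}).preimage continuous_snd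
     open_target := isOpen_univ
     continuousOn_toFun := continuous_fst.continuousOn
     continuousOn_invFun := (Continuous.prodMk_left _).continuousOn }, rfl, rfl⟩

theorem lefschetz [ChartedSpace C2 X] [IsManifold 𝓘(ℂ, C2) ω X] [T2Space X] [CompactSpace X]
    (hK : H0 id (canon X) = ⊥) {u : X → X → ℂ} (hu : IsBundle SmAt u) :
    ∃ v, IsBundle HolAt v ∧ ∀ p, SmAt (v p / u p) p := by
  obtain ⟨_, _, k5, k6⟩ := P267X.pull_mfd (fst_loc (X := X))
  have fib : ∀ p q : X × ℤ, p.1 = q.1 ↔ ∃ k : ℤ, (sh X ^ k) p = q := fun p q =>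
    ⟨fun e => ⟨q.2 - p.2, by rw [sh_gz]; exact Prod.ext e (by simp)⟩, by
      rintro ⟨k, rfl⟩
      rw [sh_gz]⟩
  have sj : Function.Surjective (Prod.fst : X × ℤ → X) := fun x => ⟨(x, 0), rfl⟩
  have h1 := k6 (sh X) (sh X).continuous fun _ => rfl
  have h2 := k6 (sh X).symm (sh X).symm.continuous fun _ => rfl
  have hc : IsCyclic Prod.fst (sh X) := ⟨k5, sj, fib, h1, h2, fun k p e => by
    rw [sh_gz] at e
    simpa using congrArg Prod.snd e⟩
  have hv : Cv Prod.fst (sh X) fun p => (p.2 : ℝ) := ⟨k5, sj, fib, h1, h2,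
    fun p => (smAt_const ((p.2 : ℝ) : ℂ)).congr ((lev_ev p).mono fun q hq => by
      simp only [hq]), fun p => by
      change ((p.2 + 1 : ℤ) : ℝ) = _
      push_cast
      rfl⟩
  have ev : ∀ (f : X × ℤ → ℂ) x k, f =ᶠ[𝓝 (x, k)] (fun y => f (y, k)) ∘ Prod.fst := fun f x k =>
    (lev_ev (x, k)).mono fun q hq => congrArg f (Prod.ext rfl hq)
  have dh : ∀ (f : X × ℤ → ℂ) x k, HolAt f (x, k) → HolAt (fun y => f (y, k)) x :=
    fun f x k h => hc.hol_pi.1 (h.congr (ev f x k))
  have ds : ∀ (f : X × ℤ → ℂ) x k, SmAt f (x, k) → SmAt (fun y => f (y, k)) x :=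
    fun f x k h => hc.sm_pi.1 (h.congr (ev f x k))
  obtain ⟨C, e1, e2, hf, l, l1, l2⟩ := hv.model
    (W := fun p => {q | u p.1 q.1 ≠ 0 ∧ SmAt (u p.1 / u q.1) q.1})
    fun p => continuous_fst.continuousAt.eventually (hu p.1)
  choose c hcc using hf
  have hW : ∀ i : C.I, ∀ p ∈ (C.ch i).source,
      u (c i.1).1 p.1 ≠ 0 ∧ SmAt (u (c i.1).1 / u p.1) p.1 := fun i p hp => by
    have := hcc i.1 ((C.ch_source i p).1 hp)
    rwa [e1, sh_gz] at this
  obtain ⟨a, a1, a2⟩ := C.hol_str (Φ := fun i q => if q.2 = 0 then u (c i.1).1 q.1 else 1)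
    (T := ⌈C.R⌉ + 1) (fun s hs => funext fun p => by
      have hm : (fun y => (s / l) (y, p.2)) ∈ H0 id (canon X) :=
        Submodule.subset_span ⟨rfl, fun x => dh _ x p.2 (l2 s hs (x, p.2))⟩
      rw [hK, Submodule.mem_bot] at hm
      exact (div_eq_zero_iff.1 (congrFun hm p.1)).resolve_right (l1 _))
    (fun i p hp => by
      split_ifs
      exacts [(hW i p hp).1, one_ne_zero])
    (fun i j p hp => by
      by_cases h0 : p.2 = 0
      · have h3 := hu.ne p.1
        refine (hc.sm_pi.2 ((hW i p hp.1).2.div (hW j p hp.2).2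
          (div_ne_zero (hW j p hp.2).1 h3.self_of_nhds))).congr ?_
        filter_upwards [lev_ev p, continuous_fst.continuousAt.eventually h3] with q h4 h5
        simp only [Pi.div_apply, Function.comp_apply, h4, h0, if_true]
        rw [div_div_div_cancel_right₀ h5]
      · refine smAt_one.congr ?_
        filter_upwards [lev_ev p] with q h4
        simp only [Pi.div_apply, h4, h0, if_false, div_one, Pi.one_apply])
    (fun i hi p hp => by
      refine if_neg fun h0 => ?_
      have h3 := C.t_ch hp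
      rw [e2] at h3
      simp only [h0, Int.cast_zero, zero_add] at h3
      have h4 := (Int.cast_le (R := ℝ)).2 hi
      push_cast at h4
      linarith [Int.le_ceil C.R])
  have hU : ∀ p, p ∈ C.U (C.idx p) (5 / 2) := fun p => C.U_mono _ (by norm_num) (C.mem_U_idx p)
  refine ⟨fun x y => u (c (C.idx (x, 0)).1).1 y * Complex.exp (a (C.idx (x, 0)) (y, 0)),
    fun x => ?_, fun x => ?_⟩
  · filter_upwards [(Continuous.prodMk_left (0 : ℤ)).continuousAt.eventually
      ((C.isOpen_U _ _).eventually_mem (hU (x, 0)))] with y hy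
    refine ⟨mul_ne_zero (hW _ _ hy.1).1 (Complex.exp_ne_zero _), ?_⟩
    simpa only [if_true, Pi.div_def] using dh _ y 0 (a2 _ _ (y, 0) ⟨hy, hU (y, 0)⟩)
  · refine ((hW _ _ (hU (x, 0)).1).2.mul (ds _ x 0 (a1 _ _ (hU (x, 0)))).exp).congr
      (Eventually.of_forall fun y => ?_)
    simp only [Pi.mul_apply, Pi.div_apply]
    rw [mul_div_right_comm]

end Vale.Agent.P267W
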