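import Vale.Agent.P267.AB
import Vale.Agent.P267W.Defs

/-! P267, compact surfaces: the atlas without drift, part AB. -/

open scoped Manifold ContDiff Topology

open Filter Metric Set

noncomputable section

namespace Vale.Agent.P267W

open Vale.Agent.P267

set_option linter.unusedSectionVars false

variable {M : Type} [TopologicalSpace M] [ChartedSpace C2 M] [T2Space M]

namespace Cov
variable (C : Cov M) {f : M → ℂ} {p : M}

theorem hol_gz (k : ℤ) : HolAt (f ∘ (C.g ^ k : M ≃ₜ M)) p ↔ HolAt f ((C.g ^ k) p) :=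
  AB_gz C.g C.hol_g k f p
theorem sm_gz (k : ℤ) : SmAt (f ∘ (C.g ^ k : M ≃ₜ M)) p ↔ SmAt f ((C.g ^ k) p) :=
  AB_gz C.g C.sm_g k f p
theorem gz_add (k m : ℤ) (p : M) : (C.g ^ (k + m)) p = (C.g ^ k) ((C.g ^ m) p) := by
  rw [zpow_add]
  rfl
theorem AB_succ (k : ℤ) (p : M) : (C.g ^ (k + 1)) p = C.g ((C.g ^ k) p) := by
  rw [add_comm, gz_add, zpow_one]
theorem t_gz (k : ℤ) (p : M) : C.t ((C.g ^ k) p) = C.t p + k := by
  induction k using Int.induction_on with
  | zero => simp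
  | succ k ih =>
    rw [AB_succ, C.shift, ih]
    push_cast
    ring
  | pred k ih =>
    have := C.shift ((C.g ^ (-(k : ℤ) - 1)) p)
    rw [← AB_succ, sub_add_cancel, ih] at this
    push_cast at this ⊢
    linarith
theorem idx_gz (k : ℤ) (p : M) : C.idx ((C.g ^ k) p) = ((C.idx p).1, (C.idx p).2 - k) := by
  induction k using Int.induction_on with
  | zero => simp
  | succ k ih => rw [AB_succ, C.idx_g, ih, sub_add_eq_sub_sub]
  | pred k ih =>
    have := C.idx_g ((C.g ^ (-(k : ℤ) - 1)) p)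
    rw [← AB_succ, sub_add_cancel, ih, Prod.mk.injEq] at this
    refine Prod.ext this.1.symm ?_
    have h2 := this.2
    simp only
    omega
theorem ch_apply (i : C.I) (p : M) : C.ch i p = C.e i.1 ((C.g ^ i.2) p) := rfl
theorem ch_symm (i : C.I) (z : C2) : (C.ch i).symm z = (C.g ^ (-i.2)) ((C.e i.1).symm z) := by
  rw [zpow_neg]
  rfl
theorem ch_source (i : C.I) (p : M) :
    p ∈ (C.ch i).source ↔ (C.g ^ i.2) p ∈ (C.e i.1).source := by
  simp [ch, shiftCh]
theorem ch_target (i : C.I) : (C.ch i).target = ball 0 4 := by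
  simp [ch, shiftCh, C.tgt]
theorem ch_shift (i : C.I) (k : ℤ) (p : M) :
    C.ch (i.1, i.2 - k) ((C.g ^ k) p) = C.ch i p := by
  rw [ch_apply, ch_apply, ← gz_add, sub_add_cancel]
theorem ch_symm_shift (i : C.I) (k : ℤ) (z : C2) :
    (C.ch (i.1, i.2 - k)).symm z = (C.g ^ k) ((C.ch i).symm z) := by
  rw [ch_symm, ch_symm, ← gz_add, neg_sub, sub_eq_add_neg]
theorem U_shift (i : C.I) (k : ℤ) (r : ℝ) (p : M) :
    (C.g ^ k) p ∈ C.U (i.1, i.2 - k) r ↔ p ∈ C.U i r := by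
  simp only [U, mem_ofPred_eq, ch_shift, ch_source, ← gz_add, sub_add_cancel]
theorem isCh (i : C.I) : IsCh (C.ch i) := by
  have e : ∀ f : M → ℂ, (f ∘ (C.g ^ (-i.2) : M ≃ₜ M)) ∘ (C.g ^ i.2 : M ≃ₜ M) = f := fun f =>
    funext fun q => by
      simp only [Function.comp_apply]
      rw [← gz_add, neg_add_cancel, zpow_zero]
      rfl
  have e' : ∀ f : M → ℂ, f ∘ (C.ch i).symm = (f ∘ (C.g ^ (-i.2) : M ≃ₜ M)) ∘ (C.e i.1).symm :=
    fun f => funext fun z => by simp only [Function.comp_apply, ch_symm]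
  refine ⟨fun p hp f => ?_, fun p hp f => ?_⟩
  · rw [e', ch_apply, ← C.hol _ _ ((C.ch_source i p).1 hp), ← hol_gz, e]
  · rw [e', ch_apply, ← C.sm _ _ ((C.ch_source i p).1 hp), ← sm_gz, e]
theorem isOpen_U (i : C.I) (r : ℝ) : IsOpen (C.U i r) := by
  have e : C.U i r = (C.ch i).source ∩ C.ch i ⁻¹' ball 0 r := by
    ext p
    simp only [U, mem_ofPred_eq, mem_inter_iff, mem_preimage, mem_ball_zero_iff]
  rw [e]
  exact (C.ch i).isOpen_inter_preimage isOpen_ball
theorem U_mono (i : C.I) {r r' : ℝ} (h : r ≤ r') : C.U i r ⊆ C.U i r' :=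
  fun _ hp => ⟨hp.1, hp.2.trans_le h⟩
theorem mem_U_idx (p : M) : p ∈ C.U (C.idx p) 1 :=
  ⟨(C.ch_source _ p).2 (C.idx_mem p).1, (C.idx_mem p).2⟩
theorem symm_mem_U (i : C.I) {r : ℝ} (hr : r ≤ 4) {z : C2} (hz : ‖z‖ < r) :
    (C.ch i).symm z ∈ C.U i r ∧ C.ch i ((C.ch i).symm z) = z := by
  have ht : z ∈ (C.ch i).target := by
    rw [ch_target]
    exact mem_ball_zero_iff.2 (hz.trans_le hr)
  have e := (C.ch i).right_inv ht
  exact ⟨⟨(C.ch i).map_target ht, by rw [e]; exact hz⟩, e⟩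
theorem t_ch {i : C.I} (hp : p ∈ (C.ch i).source) : |C.t p + i.2| ≤ C.R := by
  rw [← t_gz]
  exact C.t_bd _ _ ((C.ch_source i p).1 hp)
include C in
theorem hol_ev (hf : HolAt f p) : ∀ᶠ q in 𝓝 p, HolAt f q := by
  have hp := (C.mem_U_idx p).1
  have h := (((C.isCh _).hol p hp f).1 hf).eventually_analyticAt
  filter_upwards [((C.ch _).continuousAt hp).eventually h, (C.ch _).open_source.mem_nhds hp]
    with q h1 h2 using ((C.isCh _).hol q h2 f).2 h1
include C in
theorem sm_ev (hf : SmAt f p) : ∀ᶠ q in 𝓝 p, SmAt f q := by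
  have hp := (C.mem_U_idx p).1
  have h := (((C.isCh _).sm p hp f).1 hf).eventually_nhds
  filter_upwards [((C.ch _).continuousAt hp).eventually h, (C.ch _).open_source.mem_nhds hp]
    with q h1 h2 using ((C.isCh _).sm q h2 f).2 h1

end Cov

end Vale.Agent.P267W
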