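import Vale.Agent.P267.AG
import Vale.Agent.P267W.AF

/-! P267, compact surfaces: the atlas without drift, part AG. -/

open scoped Manifold ContDiff Topology

open Filter Metric Set

noncomputable section

namespace Vale.Agent.P267W

open Vale.Agent.P267

set_option linter.unusedSectionVars false

variable {M : Type} [TopologicalSpace M] [ChartedSpace C2 M] [T2Space M]

open Asymptotics

variable {u v : M → M → ℂ} {s q : M → ℂ} {p : M}

namespace Cov
variable {C : Cov M}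

variable {J J' : Set C.I} {a b : C.I → M → ℂ} {δ δ' B B' : ℝ}

theorem TailOn.mono (h : C.TailOn u J a δ B) (hJ : J' ⊆ J) (hδ : δ' ≤ δ) (hB : B ≤ B')
    (h0 : 0 ≤ B') : C.TailOn u J' a δ' B' :=
  ⟨fun i hi => h.sm i (hJ hi), fun i hi => h.frame i (hJ hi),
    fun i hi j hj => h.hol i (hJ hi) j (hJ hj), fun i hi p hp => by
      have h1 : B * Real.exp (-δ * |(i.2 : ℝ)|) ≤ B' * Real.exp (-δ' * |(i.2 : ℝ)|) :=
        mul_le_mul hB (Real.exp_le_exp.2 (mul_le_mul_of_nonneg_right (neg_le_neg hδ)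
          (abs_nonneg _))) (Real.exp_pos _).le h0
      exact ⟨(h.bd i (hJ hi) p hp).1.trans h1, (h.bd i (hJ hi) p hp).2.trans h1⟩⟩

theorem TailOn.mul (h : C.TailOn u J a δ B) (h' : C.TailOn v J b δ B') :
    C.TailOn (u * v) J (a + b) δ (B + B') := by
  refine ⟨fun i hi p hp => (h.sm i hi p hp).add (h'.sm i hi p hp), fun i hi p hp => ?_,
    fun i hi j hj p hp => ?_, fun i hi p hp => ?_⟩
  · refine ((h.frame i hi p hp).mul (h'.frame i hi p hp)).congr (Eventually.of_forall fun q => ?_)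
    simp only [Pi.mul_apply, Pi.div_apply, Pi.add_apply, Complex.exp_add, mul_div_mul_comm]
  · rw [Pi.add_apply, Pi.add_apply, add_sub_add_comm]
    exact (h.hol i hi j hj p hp).add (h'.hol i hi j hj p hp)
  · rw [add_mul, Pi.add_apply, C.db_add (h.sm i hi p hp) (h'.sm i hi p hp)]
    exact ⟨(norm_add_le _ _).trans (add_le_add (h.bd i hi p hp).1 (h'.bd i hi p hp).1),
      (norm_add_le _ _).trans (add_le_add (h.bd i hi p hp).2 (h'.bd i hi p hp).2)⟩

theorem TailOn.inv (hu : IsBundle HolAt u) (h : C.TailOn u J a δ B) :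
    C.TailOn u⁻¹ J (-a) δ B := by
  refine ⟨fun i hi p hp => (h.sm i hi p hp).neg, fun i hi p hp => ?_,
    fun i hi j hj p hp => ?_, fun i hi p hp => ?_⟩
  · refine ((h.frame i hi p hp).inv (div_ne_zero (Complex.exp_ne_zero _)
      (hu.ne p).self_of_nhds)).congr (Eventually.of_forall fun q => ?_)
    simp only [Pi.inv_apply, Pi.div_apply, Pi.neg_apply, Complex.exp_neg, inv_div, inv_div_inv]
  · rw [Pi.neg_apply, Pi.neg_apply, neg_sub_neg]
    exact h.hol j hj i hi p ⟨hp.2, hp.1⟩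
  · rw [Pi.neg_apply, C.db_neg, Pi.neg_apply, norm_neg, norm_neg]
    exact h.bd i hi p hp

theorem TailOn.pull (h : C.TailOn u J a δ B) (hδ : 0 ≤ δ) (hB : 0 ≤ B) (k : ℤ) :
    C.TailOn (pull (C.g ^ k : M ≃ₜ M) u) {i | (i.1, i.2 - k) ∈ J}
      (fun i => a (i.1, i.2 - k) ∘ (C.g ^ k : M ≃ₜ M)) δ (B * Real.exp (δ * |(k : ℝ)|)) := by
  refine ⟨fun i hi p hp => (C.sm_gz k).2 (h.sm _ hi _ ((C.U_shift i k 2 p).2 hp)),
    fun i hi p hp => (C.hol_gz k).2 (h.frame _ hi _ ((C.U_shift i k 2 p).2 hp)),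
    fun i hi j hj p hp => (C.hol_gz k).2 (h.hol _ hi _ hj _
      ⟨(C.U_shift i k 2 p).2 hp.1, (C.U_shift j k 2 p).2 hp.2⟩), fun i hi p hp => ?_⟩
  have h0 := h.bd _ hi _ ((C.U_shift i k 2 p).2 hp)
  have h2 : B * Real.exp (-δ * |(((i.1, i.2 - k) : C.I).2 : ℝ)|) ≤
      B * Real.exp (δ * |(k : ℝ)|) * Real.exp (-δ * |(i.2 : ℝ)|) := by
    rw [mul_assoc, ← Real.exp_add]
    refine mul_le_mul_of_nonneg_left (Real.exp_le_exp.2 ?_) hB
    have h1 := mul_le_mul_of_nonneg_left (abs_sub_abs_le_abs_sub (i.2 : ℝ) k) hδ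
    push_cast
    linarith
  rw [C.db_gz]
  exact ⟨h0.1.trans h2, h0.2.trans h2⟩

theorem TailOn.norm (h : C.TailOn u J a δ B) {i : C.I} (hi : i ∈ J) (hp : p ∈ C.U i 2) :
    ‖a i p‖ ≤ B * Real.exp (-δ * |(i.2 : ℝ)|) := (h.bd i hi p hp).1

/-- In the region of the tail the frames are smooth functions. -/
theorem TailOn.sm_frame (hu : IsBundle HolAt u) (h : C.TailOn u J a δ B) {i : C.I} (hi : i ∈ J)
    (hp : p ∈ C.U i 2) : SmAt (u p) p :=
  ((h.sm i hi p hp).exp.div (h.frame i hi p hp).smAt (div_ne_zero (Complex.exp_ne_zero _)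
    (hu.ne p).self_of_nhds)).congr
    (Eventually.of_forall fun _ => div_div_cancel₀ (Complex.exp_ne_zero _))

theorem TailOn.hol_iff (hu : IsBundle HolAt u) (h : C.TailOn u J a δ B) {i : C.I} (hi : i ∈ J)
    (hp : p ∈ C.U i 2) (s : M → ℂ) :
    HolAt (u p * s) p ↔ HolAt ((fun y => Complex.exp (a i y)) * s) p := by
  refine ⟨fun h1 => ((h.frame i hi p hp).mul h1).congr ((hu.ne p).mono fun y hy => ?_),
    fun h1 => (h1.div (h.frame i hi p hp) (div_ne_zero (Complex.exp_ne_zero _)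
      (hu.ne p).self_of_nhds)).congr ((hu.ne p).mono fun y hy => ?_)⟩
  · simp only [Pi.mul_apply, Pi.div_apply]
    field_simp
  · have := Complex.exp_ne_zero (a i y)
    simp only [Pi.mul_apply, Pi.div_apply]
    field_simp

theorem tail_one : C.Tail 1 :=
  ⟨isBundle_one, fun _ => smAt_const (‖(1 : ℂ)‖ : ℝ), ⟨0, 1, 0, 0, one_pos,
    fun _ _ _ _ => smAt_zero,
    fun _ _ _ _ => holAt_const (Complex.exp 0 / 1), fun _ _ _ _ _ _ => holAt_zero.sub holAt_zero,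
    fun i _ p _ => ⟨by simp, by
      rw [show ((0 : C.I → M → ℂ) i) = fun _ => 0 from rfl, C.db_const]; simp⟩⟩,
    fun _ => ⟨1, 1, fun _ _ => ⟨one_ne_zero, holAt_const (1 / 1), by simp, by simp⟩⟩⟩

theorem ag_tail (h : C.Tail u) : ∃ (a : C.I → M → ℂ) (δ B : ℝ) (T : ℤ), 0 < δ ∧ 0 ≤ B ∧
    C.TailOn u {i | T ≤ |i.2|} a δ B := by
  obtain ⟨a, δ, B, T, hδ, h1⟩ := h.tail
  exact ⟨a, δ, max B 0, T, hδ, le_max_right _ _,
    h1.mono subset_rfl le_rfl (le_max_left _ _) (le_max_right _ _)⟩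

theorem Tail.mul (h : C.Tail u) (h' : C.Tail v) : C.Tail (u * v) := by
  obtain ⟨a, δ, B, T, hδ, hB, h1⟩ := ag_tail h
  obtain ⟨b, δ', B', T', hδ', hB', h2⟩ := ag_tail h'
  refine ⟨h.hol.mul h'.hol, fun p => ((h.sm p).mul (h'.sm p)).congr
    (Eventually.of_forall fun q => ?_), ⟨a + b, min δ δ', B + B', max T T', lt_min hδ hδ',
    (h1.mono (fun i hi => (le_max_left T T').trans hi) (min_le_left _ _) le_rfl hB).mul
      (h2.mono (fun i hi => (le_max_right T T').trans hi) (min_le_right _ _) le_rfl hB')⟩,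
    fun c => ?_⟩
  · simp only [Pi.mul_apply, norm_mul, Complex.ofReal_mul]
  obtain ⟨F, D, hF⟩ := h.framed c
  obtain ⟨F', D', hF'⟩ := h'.framed c
  refine ⟨F * F', D * D', fun q hq => ?_⟩
  obtain ⟨a1, a2, a3, a4⟩ := hF q hq
  obtain ⟨b1, b2, b3, b4⟩ := hF' q hq
  refine ⟨mul_ne_zero a1 b1, (a2.mul b2).congr (Eventually.of_forall fun y => ?_), ?_, ?_⟩
  · simp only [Pi.mul_apply, Pi.div_apply, mul_div_mul_comm]
  · rw [Pi.mul_apply, norm_mul]
    exact mul_le_mul a3 b3 (norm_nonneg _) ((norm_nonneg _).trans a3)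
  · rw [Pi.mul_apply, mul_inv, norm_mul]
    exact mul_le_mul a4 b4 (norm_nonneg _) ((norm_nonneg _).trans a4)

theorem Tail.inv (h : C.Tail u) : C.Tail u⁻¹ := by
  obtain ⟨a, δ, B, T, hδ, h1⟩ := h.tail
  refine ⟨h.hol.inv, fun p => ((h.sm p).inv (Complex.ofReal_ne_zero.2
    (norm_ne_zero_iff.2 (h.hol.ne p).self_of_nhds))).congr (Eventually.of_forall fun q => ?_),
    ⟨-a, δ, B, T, hδ, h1.inv h.hol⟩, fun c => ?_⟩
  · simp only [Pi.inv_apply, norm_inv, Complex.ofReal_inv]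
  obtain ⟨F, D, hF⟩ := h.framed c
  refine ⟨F⁻¹, D, fun q hq => ?_⟩
  obtain ⟨a1, a2, a3, a4⟩ := hF q hq
  refine ⟨inv_ne_zero a1, (a2.inv (div_ne_zero a1 (h.hol.ne q).self_of_nhds)).congr
    (Eventually.of_forall fun y => ?_), a4, by rwa [Pi.inv_apply, inv_inv]⟩
  simp only [Pi.inv_apply, Pi.div_apply, inv_div, inv_div_inv]

theorem Tail.div (h : C.Tail u) (h' : C.Tail v) : C.Tail (u / v) := by
  rw [div_eq_mul_inv]
  exact h.mul h'.inv

theorem Tail.pull (h : C.Tail u) (k : ℤ) : C.Tail (pull (C.g ^ k : M ≃ₜ M) u) := by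
  obtain ⟨a, δ, B, T, hδ, hB, h1⟩ := ag_tail h
  refine ⟨bundle_pull h.hol k, fun p => (C.sm_gz k).2 (h.sm _), ⟨_, δ, _, T + |k|, hδ,
    (h1.pull hδ.le hB k).mono (fun i (hi : T + |k| ≤ |i.2|) => ?_) le_rfl le_rfl
      (by positivity)⟩, fun c => ?_⟩
  · change T ≤ |i.2 - k|
    linarith [abs_sub_abs_le_abs_sub i.2 k]
  obtain ⟨F, D, hF⟩ := h.framed (c.1, c.2 - k)
  refine ⟨F ∘ (C.g ^ k : M ≃ₜ M), D, fun q hq => ?_⟩
  obtain ⟨a1, a2, a3, a4⟩ := hF _ ((C.U_shift c k 2 q).2 hq)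
  exact ⟨a1, (C.hol_gz k).2 a2, a3, a4⟩

theorem Tail.prod {ι : Type} {W : Finset ι} {F : ι → M → M → ℂ} (h : ∀ i ∈ W, C.Tail (F i)) :
    C.Tail (∏ i ∈ W, F i) := by
  classical
  induction W using Finset.induction_on with
  | empty => exact tail_one
  | insert i W hi ih =>
    rw [Finset.prod_insert hi]
    exact (h i (Finset.mem_insert_self i W)).mul (ih fun j hj => h j (Finset.mem_insert_of_mem hj))

theorem Tail.tail' (h : C.Tail u) : ∃ (a : C.I → M → ℂ) (δ B : ℝ) (T : ℤ), 0 < δ ∧ 0 ≤ B ∧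
    C.TailOn u {i | T ≤ |i.2|} a δ B := ag_tail h

/-- The norm of a section is comparable with the modulus of its local expression. -/
theorem Tail.theta (h : C.Tail u) (s : M → ℂ) (p : M) : s =Θ[𝓝 p] (u p * s) := by
  have h1 := isTheta_of_div_tendsto_nhds_ne_zero (f := fun _ => (1 : ℂ))
    (g := fun q => (‖u p q‖ : ℂ)) (by simpa only [div_one] using (h.sm p).continuousAt.tendsto)
    (Complex.ofReal_ne_zero.2 (norm_ne_zero_iff.2 (h.hol.ne p).self_of_nhds))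
  have h2 := ((h1.trans (Complex.isTheta_ofReal _ _)).of_norm_right).mul (isTheta_refl s (𝓝 p))
  simp only [one_mul] at h2
  exact h2

theorem Tail.cont_norm (h : C.Tail u) (hs : SmAt (u p * s) p) :
    ContinuousAt (fun y => ‖s y‖) p := by
  have h1 : ContinuousAt (fun y => ‖u p y‖) p :=
    Complex.continuous_re.continuousAt.comp (h.sm p).continuousAt
  refine (hs.continuousAt.norm.div h1 (norm_ne_zero_iff.2 (h.hol.ne p).self_of_nhds)).congr
    ((h.hol.ne p).mono fun y hy => ?_)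
  simp only [Pi.mul_apply, Pi.div_apply, norm_mul]
  exact mul_div_cancel_left₀ _ (norm_ne_zero_iff.2 hy)

end Cov

end Vale.Agent.P267W
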