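import Vale.Agent.P267S.SM1
import Vale.Agent.P267W.SDefs

/-! P267, compact surfaces: the atlas without drift, part SM1. -/

open scoped Manifold ContDiff Topology

open Filter Metric Set

noncomputable section

namespace Vale.Agent.P267W

open Vale.Agent.P267

set_option linter.unusedSectionVars false

variable {M : Type} [TopologicalSpace M] [ChartedSpace C2 M] [T2Space M]

namespace Cov
variable (C : Cov M) {i l : C.I} {p : M} {r δ : ℝ} {f : M → ℂ} {α : M → C2 →L[ℝ] ℂ}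

/-- The charts that may meet the chart `i`. -/
def nb (i : C.I) : Finset C.I :=
  Finset.univ ×ˢ Finset.Icc (i.2 - ⌈2 * C.R⌉) (i.2 + ⌈2 * C.R⌉)

theorem mem_nb (hi : p ∈ (C.ch i).source) (hl : p ∈ (C.ch l).source) : l ∈ C.nb i := by
  have h1 := abs_le.1 (C.t_ch hi)
  have h2 := abs_le.1 (C.t_ch hl)
  have h3 := Int.le_ceil (2 * C.R)
  refine Finset.mem_product.2 ⟨Finset.mem_univ _, Finset.mem_Icc.2 ⟨?_, ?_⟩⟩ <;>
    refine (Int.cast_le (R := ℝ)).1 ?_ <;> push_cast <;> linarith [h1.1, h1.2, h2.1, h2.2]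

theorem card_nb : ∃ m : ℕ, ∀ i, (C.nb i).card = m :=
  ⟨Fintype.card C.ι * (2 * ⌈2 * C.R⌉ + 1).toNat, fun i => by
    rw [nb, Finset.card_product, Int.card_Icc, Finset.card_univ]
    congr 2
    ring⟩

theorem wt_pos (δ : ℝ) (c : ℤ) (i : C.I) : 0 < C.wt δ c i := Real.exp_pos _

theorem wt_mono {δ δ' : ℝ} (h : δ ≤ δ') (c : ℤ) (i : C.I) : C.wt δ' c i ≤ C.wt δ c i :=
  Real.exp_le_exp.2 (mul_le_mul_of_nonneg_right (neg_le_neg h) (abs_nonneg _))

theorem wt_le_one (hδ : 0 ≤ δ) (c : ℤ) (i : C.I) : C.wt δ c i ≤ 1 :=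
  Real.exp_le_one_iff.2 (mul_nonpos_of_nonpos_of_nonneg (neg_nonpos.2 hδ) (abs_nonneg _))

theorem wt_nb (hδ : 0 ≤ δ) : ∃ L : ℝ, 1 ≤ L ∧ ∀ c i, ∀ l ∈ C.nb i, C.wt δ c l ≤ L * C.wt δ c i := by
  refine ⟨Real.exp (δ * |(⌈2 * C.R⌉ : ℝ)|), Real.one_le_exp (by positivity), fun c i l hl => ?_⟩
  have h := Finset.mem_Icc.1 (Finset.mem_product.1 hl).2
  have h1 := (Int.cast_le (R := ℝ)).2 h.1
  have h2 := (Int.cast_le (R := ℝ)).2 h.2
  push_cast at h1 h2
  have h3 : |(i.2 : ℝ) - l.2| ≤ |(⌈2 * C.R⌉ : ℝ)| :=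
    (abs_le.2 ⟨by linarith, by linarith⟩).trans (le_abs_self _)
  have h4 := mul_le_mul_of_nonneg_left ((abs_sub_le (i.2 : ℝ) l.2 c).trans
    (add_le_add h3 le_rfl)) hδ
  rw [wt, wt, ← Real.exp_add, Real.exp_le_exp]
  linarith

theorem rho_le (i : C.I) (p : M) : ‖(C.rho i p : ℂ)‖ ≤ 1 := by
  rw [Complex.norm_real, Real.norm_of_nonneg (C.rho_nonneg i p)]
  by_cases h : C.rho i p = 0
  · rw [h]
    exact zero_le_one
  · have h1 := (C.rho_supp h).1
    rw [← C.rho_sum (F := C.nb i) fun l hl => C.mem_nb h1 hl]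
    exact Finset.single_le_sum (f := fun l => C.rho l p) (fun l _ => C.rho_nonneg l p)
      (C.mem_nb h1 h1)

theorem rho_U (hr : 1 < r) (h : C.rho l p ≠ 0) : p ∈ C.U l r :=
  ⟨(C.rho_supp h).1, (C.rho_supp h).2.trans_lt hr⟩

theorem SM1_ev (h : ¬ (p ∈ (C.ch l).source ∧ ‖C.ch l p‖ ≤ 1)) : ∀ᶠ q in 𝓝 p, C.rho l q = 0 :=
  mem_of_superset ((C.isCompact_cl l (r := 1) (by norm_num)).isClosed.isOpen_compl.mem_nhds h)
    fun _ hq => by_contra fun k => hq (C.rho_supp k)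

theorem rho_ev (hr : 1 < r) (h : p ∉ C.U l r) : ∀ᶠ q in 𝓝 p, C.rho l q = 0 :=
  C.SM1_ev fun k => h ⟨k.1, k.2.trans_lt hr⟩

theorem rho_mul_sm (hr : 1 < r) (h : p ∈ C.U l r → SmAt f p) :
    SmAt (fun q => (C.rho l q : ℂ) * f q) p := by
  by_cases hp : p ∈ C.U l r
  · exact (C.rho_sm l p).mul (h hp)
  · exact smAt_zero.congr ((C.rho_ev hr hp).mono fun q hq => by simp [hq])

theorem rho_smul_smF (hr : 1 < r) (h : p ∈ C.U l r → C.SmF α p) :
    C.SmF (fun q => (C.rho l q : ℂ) • α q) p := by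
  by_cases hp : p ∈ C.U l r
  · exact (h hp).smul (C.rho_sm l p)
  · refine smF_zero.congr ((C.rho_ev hr hp).mono fun q hq => ?_)
    simp only [hq, Complex.ofReal_zero, Pi.zero_apply]
    exact (zero_smul ℂ (α q)).symm

theorem db_rho : ∃ L : ℝ, 0 ≤ L ∧ ∀ l p, ‖C.db (fun q => (C.rho l q : ℂ)) p‖ ≤ L := by
  choose B hB using fun a : C.ι => smF_bdd (C.isCompact_cl (a, 0) (r := 1) (by norm_num))
    fun p _ => smF_db (C := C) (C.rho_sm (a, 0) p)
  refine ⟨∑ a, |B a|, by positivity, fun l p => ?_⟩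
  have e : (fun q => (C.rho l q : ℂ)) =
      (fun q => (C.rho (l.1, 0) q : ℂ)) ∘ (C.g ^ l.2 : M ≃ₜ M) := rfl
  rw [e, C.db_gz]
  refine le_trans ?_ (Finset.single_le_sum (f := fun a => |B a|) (fun _ _ => abs_nonneg _)
    (Finset.mem_univ l.1))
  by_cases h : (C.g ^ l.2) p ∈ (C.ch (l.1, 0)).source ∧ ‖C.ch (l.1, 0) ((C.g ^ l.2) p)‖ ≤ 1
  · exact (hB _ _ h).trans (le_abs_self _)
  · rw [C.db_congr (h := fun _ => 0) ((C.SM1_ev h).mono fun q hq => by simp [hq]), C.db_const,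
      norm_zero]
    exact abs_nonneg _

theorem db_sum {ι : Type} (W : Finset ι) {F : ι → M → ℂ} (h : ∀ a ∈ W, SmAt (F a) p) :
    C.db (fun q => ∑ a ∈ W, F a q) p = ∑ a ∈ W, C.db (F a) p := by
  classical
  induction W using Finset.induction_on with
  | empty => exact C.db_const 0
  | insert a W ha ih =>
    have h1 := fun b hb => h b (Finset.mem_insert_of_mem hb)
    have h2 := C.db_add (h a (Finset.mem_insert_self _ _)) (SmAt.sum h1)
    simp only [Finset.sum_insert ha, ← ih h1]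
    rw [Finset.sum_fn] at h2
    exact h2

theorem smF_sum {ι : Type} (W : Finset ι) {β : ι → M → C2 →L[ℝ] ℂ} (h : ∀ a ∈ W, C.SmF (β a) p) :
    C.SmF (fun q => ∑ a ∈ W, β a q) p := by
  rw [← Finset.sum_fn]
  exact Finset.sum_induction β (fun G => C.SmF G p) (fun _ _ ha hb => ha.add hb) smF_zero h

/-- Sums against the partition of unity do not depend on the set of charts. -/
theorem sum_nb {V : Type} [AddCommGroup V] [Module ℂ V] (x : C.I → V) {W W' : Finset C.I}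
    (h : ∀ l, p ∈ (C.ch l).source → l ∈ W) (h' : ∀ l, p ∈ (C.ch l).source → l ∈ W') :
    ∑ l ∈ W, (C.rho l p : ℂ) • x l = ∑ l ∈ W', (C.rho l p : ℂ) • x l := by
  classical
  have k : ∀ l, l ∉ W ∩ W' → (C.rho l p : ℂ) • x l = 0 := fun l hl => by
    have h0 : C.rho l p = 0 := by_contra fun k =>
      hl (Finset.mem_inter.2 ⟨h l (C.rho_supp k).1, h' l (C.rho_supp k).1⟩)
    rw [h0, Complex.ofReal_zero, zero_smul]
  rw [← Finset.sum_subset Finset.inter_subset_left fun l _ => k l,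
    ← Finset.sum_subset Finset.inter_subset_right fun l _ => k l]

theorem sum_rho {W : Finset C.I} (h : ∀ l, p ∈ (C.ch l).source → l ∈ W) :
    ∑ l ∈ W, (C.rho l p : ℂ) = 1 := by
  rw [← Complex.ofReal_sum, C.rho_sum h, Complex.ofReal_one]

/-- A bound on each chart, and zero on the far charts, give a weighted bound. -/
theorem bd_wt {x : C.I → M → ℝ} {T : ℤ} (h : ∀ i, ∃ B, ∀ p ∈ C.U i r, x i p ≤ B)
    (h0 : ∀ i : C.I, T ≤ |i.2| → ∀ p ∈ C.U i r, x i p ≤ 0) (δ : ℝ) :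
    ∃ D, 0 ≤ D ∧ ∀ i, ∀ p ∈ C.U i r, x i p ≤ D * C.wt δ 0 i := by
  choose B hB using h
  have k : ∀ i, 0 ≤ |B i| / C.wt δ 0 i := fun i => div_nonneg (abs_nonneg _) (C.wt_pos _ _ _).le
  have hD : 0 ≤ ∑ i ∈ Finset.univ ×ˢ Finset.Icc (-T) T, |B i| / C.wt δ 0 i :=
    Finset.sum_nonneg fun i _ => k i
  refine ⟨_, hD, fun i p hp => ?_⟩
  rcases le_total T |i.2| with hi | hi
  · exact (h0 i hi p hp).trans (mul_nonneg hD (C.wt_pos _ _ _).le)
  · refine ((hB i p hp).trans (le_abs_self _)).trans ((div_le_iff₀ (C.wt_pos δ 0 i)).1 ?_)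
    exact Finset.single_le_sum (f := fun i => |B i| / C.wt δ 0 i) (fun i _ => k i)
      (Finset.mem_product.2 ⟨Finset.mem_univ _, Finset.mem_Icc.2 (abs_le.1 hi)⟩)

end Cov

end Vale.Agent.P267W
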