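import Vale.Agent.P267S.Geo
import Vale.Agent.P267W.SDefs2
import Vale.Agent.P267W.SM1

/-! P267, compact surfaces: the atlas without drift, part Geo. -/

open scoped Manifold ContDiff Topology ENNReal Real

open Filter Metric Set MeasureTheory

noncomputable section

namespace Vale.Agent.P267W

open Vale.Agent.P267

set_option linter.unusedSectionVars false

variable {M : Type} [TopologicalSpace M] [ChartedSpace C2 M] [T2Space M]

namespace Cov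
variable (C : Cov M)

theorem geo_kf1 (i : C.I) : ∃ L : ℝ, ∀ p ∈ C.U i 3, ‖C.kf i p‖ ≤ L ∧ ‖(C.kf i p)⁻¹‖ ≤ L := by
  have hK := C.isCompact_cl i (r := 3) (by norm_num)
  have hc : ∀ p ∈ (C.ch i).source, ContinuousAt (fun q => (‖C.kf i q‖ : ℂ)) p := fun p hp =>
    ((C.sm_gz i.2).2 (C.kc_sm i.1 _ ((C.ch_source i p).1 hp))).continuousAt
  obtain ⟨B, hB⟩ := hK.exists_bound_of_continuousOn (f := fun q => (‖C.kf i q‖ : ℂ))
    fun p hp => (hc p hp.1).continuousWithinAt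
  obtain ⟨B', hB'⟩ := hK.exists_bound_of_continuousOn (f := fun q => (‖C.kf i q‖ : ℂ)⁻¹)
    fun p hp => ((hc p hp.1).inv₀ (by simpa using C.kf_ne hp.1)).continuousWithinAt
  refine ⟨max B B', fun p hp => ⟨le_max_of_le_left ?_, le_max_of_le_right ?_⟩⟩
  · simpa using hB p ⟨hp.1, hp.2.le⟩
  · simpa using hB' p ⟨hp.1, hp.2.le⟩

theorem geo_kf : ∃ L : ℝ, 0 < L ∧ ∀ i, ∀ p ∈ C.U i 3,
    ‖C.kf i p‖ ≤ L ∧ ‖(C.kf i p)⁻¹‖ ≤ L := by
  choose B hB using fun a : C.ι => C.geo_kf1 (a, 0)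
  refine ⟨1 + ∑ a, |B a|, by positivity, fun i p hp => ?_⟩
  have hi := (C.U_shift i i.2 3 p).2 hp
  rw [sub_self] at hi
  have h1 : ‖C.kf i p‖ ≤ B i.1 ∧ ‖(C.kf i p)⁻¹‖ ≤ B i.1 := hB _ _ hi
  have h2 := Finset.single_le_sum (f := fun a => |B a|) (fun _ _ => abs_nonneg _)
    (Finset.mem_univ i.1)
  have h3 := le_abs_self (B i.1)
  exact ⟨by linarith [h1.1], by linarith [h1.2]⟩

theorem geo_tr : ∃ L : ℝ, 0 < L ∧ ∀ i j, ∀ p ∈ C.U i 3 ∩ C.U j 3,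
    ‖fderiv ℂ (C.ch j ∘ (C.ch i).symm) (C.ch i p)‖ ≤ L := by
  obtain ⟨L, h0, hL⟩ := C.ac_unif
  exact ⟨L, h0, fun i j p hp => hL i j p hp.1 hp.2⟩

theorem rho_le_one (i : C.I) (p : M) : C.rho i p ≤ 1 := by
  have := C.rho_le i p
  rwa [Complex.norm_real, Real.norm_of_nonneg (C.rho_nonneg i p)] at this

theorem geo_rho : ∃ L : ℝ, 0 < L ∧ ∀ i p, ‖C.db (fun q => (C.rho i q : ℂ)) p‖ ≤ L := by
  obtain ⟨L, h0, hL⟩ := C.db_rho
  exact ⟨L + 1, by linarith, fun i p => (hL i p).trans (by linarith)⟩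

theorem lev_nbr {i j : C.I} {p : M} (hi : p ∈ (C.ch i).source) (hj : p ∈ (C.ch j).source) :
    |(j.2 : ℝ) - i.2| ≤ 2 * C.R := by
  have h1 := abs_le.1 (C.t_ch hi)
  have h2 := abs_le.1 (C.t_ch hj)
  exact abs_le.2 ⟨by linarith [h1.2, h2.1], by linarith [h1.1, h2.2]⟩

/-- The neighbours of a chart. -/
theorem geo_nbr : ∃ m : ℕ, ∀ i : C.I, ∃ S : Finset C.I, S.card ≤ m ∧
    (∀ j p, p ∈ (C.ch i).source → p ∈ (C.ch j).source → j ∈ S) ∧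
    ∀ j ∈ S, |(j.2 : ℝ) - i.2| ≤ 2 * C.R := by
  obtain ⟨m, hm⟩ := C.card_nb
  refine ⟨m, fun i => ⟨(C.nb i).filter fun j => |(j.2 : ℝ) - i.2| ≤ 2 * C.R,
    (Finset.card_filter_le _ _).trans (hm i).le,
    fun j p hi hj => Finset.mem_filter.2 ⟨C.mem_nb hi hj, C.lev_nbr hi hj⟩,
    fun j hj => (Finset.mem_filter.1 hj).2⟩⟩

theorem wt_two (δ : ℝ) (c : ℤ) (i : C.I) : C.wt (2 * δ) c i = C.wt δ c i ^ 2 := by
  rw [wt, wt, sq, ← Real.exp_add]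
  congr 1
  ring

theorem wt_zero (δ : ℝ) (i : C.I) : C.wt δ 0 i = Real.exp (-δ * |(i.2 : ℝ)|) := by
  rw [wt, Int.cast_zero, sub_zero]

theorem wt_nbr {δ : ℝ} (hδ : 0 ≤ δ) (c : ℤ) {i j : C.I} (h : |(j.2 : ℝ) - i.2| ≤ 2 * C.R) :
    C.wt δ c j ≤ Real.exp (2 * δ * C.R) * C.wt δ c i := by
  have h3 : |(i.2 : ℝ) - j.2| ≤ 2 * C.R := by rwa [abs_sub_comm]
  have h4 := mul_le_mul_of_nonneg_left ((abs_sub_le (i.2 : ℝ) j.2 c).trans
    (add_le_add h3 le_rfl)) hδ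
  rw [wt, wt, ← Real.exp_add, Real.exp_le_exp]
  linarith

theorem wt_t {δ : ℝ} (hδ : 0 ≤ δ) {i : C.I} {p : M} (hp : p ∈ (C.ch i).source) :
    Real.exp (-δ * |C.t p|) ≤ Real.exp (δ * C.R) * C.wt δ 0 i ∧
      C.wt δ 0 i ≤ Real.exp (δ * C.R) * Real.exp (-δ * |C.t p|) := by
  have h := C.t_ch hp
  have h1 : |(i.2 : ℝ)| ≤ C.R + |C.t p| := by
    have := abs_sub (C.t p + i.2) (C.t p)
    rw [add_sub_cancel_left] at this
    linarith
  have h2 : |C.t p| ≤ C.R + |(i.2 : ℝ)| := by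
    have := abs_sub (C.t p + i.2) (i.2 : ℝ)
    rw [add_sub_cancel_right] at this
    linarith
  have h3 := mul_le_mul_of_nonneg_left h1 hδ
  have h4 := mul_le_mul_of_nonneg_left h2 hδ
  rw [wt_zero, ← Real.exp_add, ← Real.exp_add, Real.exp_le_exp, Real.exp_le_exp]
  constructor <;> linarith

theorem wt_sum {δ : ℝ} (hδ : 0 < δ) : ∃ A : ℝ, 0 ≤ A ∧ ∀ (c : ℤ) (S : Finset C.I),
    ∑ i ∈ S, C.wt δ c i ≤ A := by
  classical
  have hn : Summable fun n : ℕ => Real.exp (-δ * |((n : ℤ) : ℝ)|) := by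
    refine (Real.summable_exp_nat_mul_iff.2 (neg_neg_of_pos hδ)).congr fun n => ?_
    simp [mul_comm]
  have hs : Summable fun k : ℤ => Real.exp (-δ * |(k : ℝ)|) :=
    Summable.of_nat_of_neg hn (by simpa using hn)
  have h0 : 0 ≤ ∑' k : ℤ, Real.exp (-δ * |(k : ℝ)|) := tsum_nonneg fun _ => (Real.exp_pos _).le
  refine ⟨∑ _a : C.ι, ∑' k : ℤ, Real.exp (-δ * |(k : ℝ)|), Finset.sum_nonneg fun _ _ => h0,
    fun c S => ?_⟩
  have h1 : S ⊆ Finset.univ ×ˢ S.image Prod.snd := fun i hi =>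
    Finset.mem_product.2 ⟨Finset.mem_univ _, Finset.mem_image_of_mem _ hi⟩
  refine (Finset.sum_le_sum_of_subset_of_nonneg h1 fun i _ _ => (C.wt_pos δ c i).le).trans ?_
  rw [Finset.sum_product]
  refine Finset.sum_le_sum fun a _ => ?_
  have h2 := (Equiv.subRight c).summable_iff.2 hs
  rw [← (Equiv.subRight c).tsum_eq]
  refine le_trans (le_of_eq ?_)
    (h2.sum_le_tsum (S.image Prod.snd) fun _ _ => (Real.exp_pos _).le)
  refine Finset.sum_congr rfl fun k _ => ?_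
  simp [wt]

/-- A bound on finitely many charts is a bound with any weight. -/
theorem wt_fin (δ : ℝ) (T : ℤ) {P : C.I → ℝ → Prop} (hm : ∀ i x y, x ≤ y → P i x → P i y)
    (h1 : ∀ i, ∃ x, P i x) {B : ℝ} (h2 : ∀ i : C.I, T ≤ |i.2| → P i (B * C.wt δ 0 i)) :
    ∃ B' : ℝ, 0 ≤ B' ∧ ∀ i, P i (B' * C.wt δ 0 i) := by
  choose x hx using h1
  have k : ∀ i, 0 ≤ |x i| / C.wt δ 0 i := fun i => div_nonneg (abs_nonneg _) (C.wt_pos _ _ _).le
  have hD : 0 ≤ ∑ i ∈ Finset.univ ×ˢ Finset.Icc (-T) T, |x i| / C.wt δ 0 i :=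
    Finset.sum_nonneg fun i _ => k i
  refine ⟨|B| + ∑ i ∈ Finset.univ ×ˢ Finset.Icc (-T) T, |x i| / C.wt δ 0 i,
    add_nonneg (abs_nonneg _) hD, fun i => ?_⟩
  rcases le_total T |i.2| with hi | hi
  · refine hm i _ _ (mul_le_mul_of_nonneg_right ?_ (C.wt_pos _ _ _).le) (h2 i hi)
    linarith [le_abs_self B]
  · refine hm i _ _ ((le_abs_self _).trans ((div_le_iff₀ (C.wt_pos δ 0 i)).1 ?_)) (hx i)
    have := Finset.single_le_sum (f := fun i => |x i| / C.wt δ 0 i) (fun i _ => k i)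
      (Finset.mem_product.2 ⟨Finset.mem_univ _, Finset.mem_Icc.2 (abs_le.1 hi)⟩)
    linarith [abs_nonneg B]

theorem isOpen_img (i : C.I) {W : Set M} (hW : IsOpen W) (h : W ⊆ (C.ch i).source) :
    IsOpen (C.ch i '' W) := (C.ch i).isOpen_image_of_subset_source hW h

theorem img_U (i : C.I) {r : ℝ} (hr : r ≤ 4) : C.ch i '' C.U i r = ball 0 r := by
  ext z
  constructor
  · rintro ⟨p, hp, rfl⟩
    exact mem_ball_zero_iff.2 hp.2
  · intro hz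
    have := C.symm_mem_U i hr (mem_ball_zero_iff.1 hz)
    exact ⟨_, this.1, this.2⟩

theorem mem_img {i : C.I} {W : Set M} (h : W ⊆ (C.ch i).source) {z : C2}
    (hz : z ∈ C.ch i '' W) : (C.ch i).symm z ∈ W ∧ C.ch i ((C.ch i).symm z) = z := by
  obtain ⟨p, hp, rfl⟩ := hz
  rw [(C.ch i).left_inv (h hp)]
  exact ⟨hp, rfl⟩

theorem geo_ball1 {s s' u u' : ℝ} (hs : s < s') (hs' : s' ≤ 4) (hu : u < u') (hu' : u' ≤ 4)
    (i j : C.I) : ∃ ρ : ℝ, 0 < ρ ∧ ∀ p ∈ C.U i s ∩ C.U j u,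
      ball (C.ch i p) ρ ⊆ C.ch i '' (C.U i s' ∩ C.U j u') := by
  have hK := (C.isCompact_cl i (hs.trans_le hs')).inter (C.isCompact_cl j (hu.trans_le hu'))
  have hK' := hK.image_of_continuousOn ((C.ch i).continuousOn.mono fun p hp => hp.1.1)
  obtain ⟨ρ, h0, hρ⟩ := hK'.exists_thickening_subset_open
    (C.isOpen_img i ((C.isOpen_U i s').inter (C.isOpen_U j u')) fun p hp => hp.1.1)
    (image_mono fun p hp => ⟨⟨hp.1.1, hp.1.2.trans_lt hs⟩, hp.2.1, hp.2.2.trans_lt hu⟩)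
  refine ⟨ρ, h0, fun p hp => Subset.trans (ball_subset_thickening ?_ ρ) hρ⟩
  exact mem_image_of_mem _ ⟨⟨hp.1.1, hp.1.2.le⟩, hp.2.1, hp.2.2.le⟩

/-- A uniform radius for overlaps. -/
theorem geo_ball {s s' u u' : ℝ} (hs : s < s') (hs' : s' ≤ 4) (hu : u < u') (hu' : u' ≤ 4) :
    ∃ ρ : ℝ, 0 < ρ ∧ ∀ i j, ∀ p ∈ C.U i s ∩ C.U j u,
      ball (C.ch i p) ρ ⊆ C.ch i '' (C.U i s' ∩ C.U j u') := by
  choose r h0 hr using C.geo_ball1 hs hs' hu hu'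
  obtain ⟨F, hF⟩ := C.fin_slab (-C.R) C.R
  have hev : ∀ᶠ ρ in 𝓝[>] (0 : ℝ), ∀ x ∈ F ×ˢ F, ρ ≤ r x.1 x.2 :=
    (eventually_all_finset _).2 fun x _ =>
      mem_nhdsWithin_of_mem_nhds (Iic_mem_nhds (h0 x.1 x.2))
  obtain ⟨ρ, h1, h2⟩ := (hev.and self_mem_nhdsWithin).exists
  refine ⟨ρ, h2, fun i j p hp z hz => ?_⟩
  have hi' := (C.U_shift i i.2 s p).2 hp.1
  have hj' := (C.U_shift j i.2 u p).2 hp.2
  have ht : C.t ((C.g ^ i.2) p) ∈ Icc (-C.R) C.R := by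
    have h1 := C.t_ch hi'.1
    simp only [sub_self, Int.cast_zero, add_zero] at h1
    exact abs_le.1 h1
  have h3 := h1 (_, _) (Finset.mem_product.2 ⟨hF _ _ hi'.1 ht, hF _ _ hj'.1 ht⟩)
  have h4 := hr _ _ _ ⟨hi', hj'⟩
  rw [C.ch_shift] at h4
  obtain ⟨q', hq, rfl⟩ := h4 (ball_subset_ball h3 hz)
  obtain ⟨q, rfl⟩ := (C.g ^ i.2).surjective q'
  exact ⟨q, ⟨(C.U_shift i i.2 s' q).1 hq.1, (C.U_shift j i.2 u' q).1 hq.2⟩,
    (C.ch_shift i i.2 q).symm⟩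

end Cov

end Vale.Agent.P267W
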