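import Vale.Agent.P267S.APc
import Vale.Agent.P267W.CV

/-! P267, compact surfaces: the atlas without drift, part APc. -/

open scoped Manifold ContDiff Topology ENNReal Real

open Filter Metric Set MeasureTheory

noncomputable section

namespace Vale.Agent.P267W

open Vale.Agent.P267

set_option linter.unusedSectionVars false

variable {M : Type} [TopologicalSpace M] [ChartedSpace C2 M] [T2Space M]

namespace Cov
variable (C : Cov M)

theorem apc_cmp {r r₁ : ℝ} (B : ℝ) (h1 : 1 < r₁) (h2 : r₁ ≤ r) (h3 : r ≤ 3) : ∃ K : ℝ,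
    ∀ (i l : C.I) (G : C.I → M → ℂ) (η : M → ℂ) (H H' : C2 → ℂ) (A A' : ℝ), C.Fr G r B →
      0 ≤ A → 0 ≤ A' → ContinuousOn (C.du G η i) (ball 0 r₁) → AnalyticOnNhd ℂ H (ball 0 r₁) →
      AnalyticOnNhd ℂ H' (ball 0 r₁) →
      n2 (ball 0 r₁) (C.du G η i - H) ≤ ENNReal.ofReal A ^ 2 →
      n2 (ball 0 r₁) (C.du G η l - H') ≤ ENNReal.ofReal A' ^ 2 → ∀ p ∈ C.U i 1 ∩ C.U l 1,
      ‖H (C.ch i p) - C.kf i p / C.kf l p * (G l p / G i p) * H' (C.ch l p)‖ ≤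
        K * A + K ^ 2 * A' := by
  obtain ⟨ρ, hρ, k1⟩ := C.geo_ball h1 (by linarith) h1 (by linarith)
  obtain ⟨K, hK, k2⟩ := hol_mean hρ
  obtain ⟨L, hL, k3⟩ := C.geo_kf
  obtain ⟨L', hL', k4⟩ := C.cv_n2
  refine ⟨2 * K + L * L * B ^ 2 * L', fun i l G η H H' A A' hG hA hA' hc hH hH' e e' p hp => ?_⟩
  have hW := (C.isOpen_U i r₁).inter (C.isOpen_U l r₁)
  have m1 : ∀ j, C.ch j '' C.U j r₁ = ball 0 r₁ := fun j => C.img_U j (by linarith)
  have m2 : C.U i r₁ ∩ C.U l r₁ ⊆ C.U i r ∩ C.U l r :=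
    inter_subset_inter (C.U_mono _ h2) (C.U_mono _ h2)
  have m3 : C.U i r₁ ∩ C.U l r₁ ⊆ C.U i 3 ∩ C.U l 3 :=
    m2.trans (inter_subset_inter (C.U_mono _ h3) (C.U_mono _ h3))
  have o1 := C.isOpen_img i hW fun q hq => hq.1.1
  have o2 := C.isOpen_img l hW fun q hq => hq.2.1
  have s1 : C.ch i '' (C.U i r₁ ∩ C.U l r₁) ⊆ ball 0 r₁ :=
    (image_mono inter_subset_left).trans (m1 i).le
  have s2 : C.ch l '' (C.U i r₁ ∩ C.U l r₁) ⊆ ball 0 r₁ :=
    (image_mono inter_subset_right).trans (m1 l).le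
  have b1 : n2 (C.ch i '' (C.U i r₁ ∩ C.U l r₁))
      (((C.du G η l - H') ∘ C.ch l) ∘ (C.ch i).symm) ≤ ENNReal.ofReal (L' * A') ^ 2 := by
    refine apc_mul hL'.le (k4 i l _ hW m3 _) (le_trans (le_of_eq ?_) ((n2_mono_set s2).trans e'))
    exact n2_congr o2.measurableSet fun z hz =>
      congrArg (C.du G η l - H') (C.mem_img (fun q hq => hq.2.1) hz).2
  have b2 := apc_mul (by positivity : 0 ≤ L * L * B ^ 2) (n2_le (f := (C.kf i / C.kf l *
    (G l / G i) * ((C.du G η l - H') ∘ C.ch l)) ∘ (C.ch i).symm) o1.measurableSet fun z hz => by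
      have hq := (C.mem_img (fun q hq => hq.1.1) hz).1
      simp only [Function.comp_apply, Pi.mul_apply, Pi.div_apply]
      rw [norm_mul, norm_mul, div_eq_mul_inv (C.kf i _), norm_mul]
      have := hG.ratio (m2 hq).symm
      have := (k3 i _ (m3 hq).1).1
      have := (k3 l _ (m3 hq).2).2
      gcongr) b1
  have b3 := (n2_le_add (f := (H ∘ C.ch i - C.kf i / C.kf l * (G l / G i) * (H' ∘ C.ch l)) ∘
    (C.ch i).symm) o1.measurableSet (((hc.sub hH.continuousOn).mono s1).aestronglyMeasurable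
      o1.measurableSet) fun z hz => by
      obtain ⟨hq, e1⟩ := C.mem_img (fun q hq => hq.1.1) hz
      have n1 := C.kf_ne hq.2.1
      have n2 := hG.ne l _ (m2 hq).2
      refine le_trans (le_of_eq ?_) (norm_sub_le _ _)
      rw [← norm_neg]
      simp only [Function.comp_apply, Pi.mul_apply, Pi.div_apply, Pi.sub_apply, du, e1,
        (C.ch l).left_inv hq.2.1]
      congr 1
      field_simp
      ring).trans (sq_add_le hA (by positivity) ((n2_mono_set s1).trans e) b2)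
  have b4 := k2 _ _ _ (by positivity) (fun z hz => by
    obtain ⟨q, hq, rfl⟩ := k1 i l p hp hz
    exact (((C.isCh i).hol q hq.1.1 _).1 (((C.isCh i).hol_fun hq.1.1 (hH _ (s1 ⟨q, hq, rfl⟩))).sub
      (((C.kf_hol hq.1.1 hq.2.1).mul (hG.hol l i q (m2 hq).symm)).mul ((C.isCh l).hol_fun hq.2.1
        (hH' _ (s2 ⟨q, hq, rfl⟩)))))).differentiableAt.differentiableWithinAt)
    ((n2_mono_set (k1 i l p hp)).trans b3)
  simp only [Function.comp_apply, Pi.mul_apply, Pi.div_apply, Pi.sub_apply,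
    (C.ch i).left_inv hp.1.1] at b4
  refine b4.trans ?_
  obtain ⟨D, hD⟩ : ∃ D, D = L * L * B ^ 2 * L' := ⟨_, rfl⟩
  have hD0 : 0 ≤ D := by rw [hD]; positivity
  rw [← mul_assoc _ L', ← hD]
  nlinarith [mul_nonneg hD0 hA, mul_nonneg (mul_nonneg hK hD0) hA', mul_nonneg (sq_nonneg K) hA',
    mul_nonneg (sq_nonneg D) hA']

theorem apc_sec {δ A B : ℝ} (hδ : 0 ≤ δ) {F : C.I → M → ℂ} (hN : C.NoSec F) {u : C.I → C2 → ℂ}
    (u1 : ∀ i, AnalyticOnNhd ℂ (u i) (ball 0 1))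
    (u2 : ∀ i, ∀ p ∈ C.U i 1, ‖u i (C.ch i p)‖ ≤ A / C.wt δ 0 i ∧ ‖F i p‖ ≤ B)
    (u4 : ∀ i l, ∀ p ∈ C.U i 1 ∩ C.U l 1,
      u i (C.ch i p) = C.kf i p / C.kf l p * (F l p / F i p) * u l (C.ch l p)) (i : C.I) :
    ∀ z ∈ ball (0 : C2) 1, u i z = 0 := by
  obtain ⟨s, hs⟩ : ∃ s : M → ℂ, ∀ p, s p =
    u (C.idx p) (C.ch (C.idx p) p) * F (C.idx p) p * (C.kf (C.idx p) p)⁻¹ := ⟨_, fun _ => rfl⟩
  have u5 : ∀ i, ∀ p ∈ C.U i 1, (u i ∘ C.ch i) p = ((C.kf / F) i * s) p := fun i p hp => by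
    simp only [Function.comp_apply, Pi.mul_apply, Pi.div_apply, hs]
    rw [u4 i _ p ⟨hp, C.mem_U_idx p⟩]
    ring
  obtain ⟨L, hL, k5⟩ := C.geo_kf
  have u6 := hN s δ (fun i p hp => ((C.isCh i).hol_fun hp.1
    (u1 i _ (mem_ball_zero_iff.2 hp.2))).congr
      (mem_of_superset ((C.isOpen_U i 1).mem_nhds hp) (u5 i)))
    ⟨|A| * Real.exp (δ * C.R) * B * L, fun p => by
      have hp := C.mem_U_idx p
      obtain ⟨b1, b2⟩ := u2 _ p hp
      have b3 := (k5 _ p (C.U_mono _ (by norm_num) hp)).2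
      have w0 := C.wt_pos δ 0 (C.idx p)
      have b4 : (C.wt δ 0 (C.idx p))⁻¹ ≤ Real.exp (δ * C.R) * Real.exp (δ * |C.t p|) := by
        have := mul_le_mul_of_nonneg_right (C.wt_t hδ hp.1).1 (Real.exp_pos (δ * |C.t p|)).le
        rw [← Real.exp_add, neg_mul, neg_add_cancel, Real.exp_zero] at this
        rw [inv_le_iff_one_le_mul₀ w0]
        linarith
      have b6 := (norm_nonneg _).trans b2
      have b7 := b1.trans (mul_le_mul (le_abs_self A) b4 (inv_pos.2 w0).le (abs_nonneg _))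
      rw [hs, norm_mul, norm_mul]
      refine le_trans ?_ (le_of_eq (by ring : |A| *
        (Real.exp (δ * C.R) * Real.exp (δ * |C.t p|)) * B * L = _))
      gcongr⟩
  intro z hz
  obtain ⟨e1, e2⟩ := C.symm_mem_U i (by norm_num : (1 : ℝ) ≤ 4) (mem_ball_zero_iff.1 hz)
  have := u5 _ _ e1
  rwa [u6, mul_zero, Function.comp_apply, e2] at this

theorem ap_core {r r₀ B δ : ℝ} (h1 : 1 < r₀) (h2 : r₀ < r) (h3 : r ≤ 3) (hδ : 0 < δ)
    {G : ℕ → C.I → M → ℂ} (hG : ∀ m, C.Fr (G m) r B) {F : C.I → M → ℂ}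
    (hF : ∀ i, ∀ p ∈ C.U i r, Tendsto (fun m => G m i p) (hyperfilter ℕ) (𝓝 (F i p)))
    {η : ℕ → M → ℂ} (hη : ∀ m i, ∀ p ∈ C.U i r, SmAt (C.kf i / G m i * η m) p)
    (hb : ∀ m i, n2 (ball 0 1) (C.du (G m) (η m) i) ≤ ENNReal.ofReal (2 / C.wt δ 0 i) ^ 2)
    {ε : ℕ → ℝ} (hε0 : ∀ m, 0 ≤ ε m) (hε : Tendsto ε atTop (𝓝 0))
    (hd : ∀ m i, n2 (ball 0 r₀) (dbar (C.du (G m) (η m) i)) ≤
      ENNReal.ofReal (ε m / C.wt δ 0 i) ^ 2)
    (hl : ∀ m, ∃ a, 1 ≤ n2 (ball 0 1) (C.du (G m) (η m) (a, 0))) : ¬ C.NoSec F := by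
  intro hN
  obtain ⟨ρ, hρ⟩ : ∃ ρ, ρ = (r₀ - 1) / 3 := ⟨_, rfl⟩
  have hρ0 : 0 < ρ := by linarith
  obtain ⟨K, hK, k1⟩ := dol_hol (r := r₀) (r' := 1 + 2 * ρ) (by linarith) (by linarith)
  have hs : ∀ m i, ∀ z ∈ ball (0 : C2) r, ContDiffAt ℝ ∞ (C.du (G m) (η m) i) z := fun m i =>
    C.sm_ball (by linarith) (hη m i)
  have hr : ball (0 : C2) (1 + 2 * ρ) ⊆ ball 0 r := ball_subset_ball (by linarith)
  have hr' : ball (0 : C2) 1 ⊆ ball 0 (1 + 2 * ρ) := ball_subset_ball (by linarith)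
  have hc : ∀ m i, ContinuousOn (C.du (G m) (η m) i) (ball 0 (1 + 2 * ρ)) := fun m i z hz =>
    (hs m i z (hr hz)).continuousAt.continuousWithinAt
  choose H a1 _ a2 using fun m i => k1 0 _ fun z hz => hs m i z (ball_subset_ball h2.le hz)
  have a3 := fun m i => apc_mul hK (a2 m i) (hd m i)
  have a4 := fun m i => P278F.analyticOnNhd_of_differentiableOn isOpen_ball (a1 m i)
  have w0 := fun i => C.wt_pos δ 0 i
  have w1 : ∀ m i, 0 ≤ K * (ε m / C.wt δ 0 i) := fun m i =>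
    mul_nonneg hK (div_nonneg (hε0 m) (w0 i).le)
  have w2 : ∀ i, Tendsto (fun m => K * (ε m / C.wt δ 0 i)) (hyperfilter ℕ) (𝓝 0) := fun i => by
    simpa using ((hε.mono_left Nat.hyperfilter_le_atTop).div_const (C.wt δ 0 i)).const_mul K
  obtain ⟨L, hL, k2⟩ := C.cov_n2 B hδ.le
  obtain ⟨E, hE⟩ := hε.bddAbove_range
  obtain ⟨K₂, hK₂, k3⟩ := hol_mean hρ0
  have a5 : ∀ m i, ∀ z ∈ ball (0 : C2) (1 + ρ),
      ‖H m i z‖ ≤ K₂ * (2 * (L * 2 + K * E)) / C.wt δ 0 i := fun m i z hz => by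
    have s1 : ball z ρ ⊆ ball 0 (1 + 2 * ρ) :=
      ball_subset_ball' (by linarith [mem_ball.1 hz])
    have := w0 i
    refine (k3 z _ _ (by have := w1 m i; positivity) ((a1 m i).mono s1) ((n2_mono_set s1).trans
      ((n2_le_add measurableSet_ball ((hc m i).aestronglyMeasurable measurableSet_ball)
        fun y _ => norm_le_insert _ _).trans
        (sq_add_le (by positivity) (w1 m i) ((n2_mono_set hr).trans
          (k2 _ r (by linarith) h3 (hG m) _ 0 2 zero_le_two (hb m) i)) (a3 m i))))).trans ?_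
    rw [mul_div_assoc K₂, mul_div_assoc 2, add_div, mul_div_assoc K]
    gcongr
    exact hE ⟨m, rfl⟩
  choose u u1 u2 using fun i => P299.montel_u (hyperfilter ℕ) isOpen_ball (fun m =>
    (a1 m i).mono (ball_subset_ball (by linarith : 1 + ρ ≤ 1 + 2 * ρ))) fun m => a5 m i
  have hU : ∀ i, C.U i 1 ⊆ C.U i r := fun i => C.U_mono i (by linarith)
  have u3 : ∀ i, ∀ p ∈ C.U i 1, C.ch i p ∈ ball (0 : C2) (1 + ρ) := fun i p hp =>
    mem_ball_zero_iff.2 (by linarith [hp.2])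
  have f1 : ∀ i, ∀ p ∈ C.U i r, F i p ≠ 0 := fun i p hp h0 => by
    have := ge_of_tendsto' ((hF i p hp).norm.const_mul B) fun m => by
      have h4 := mul_le_mul_of_nonneg_right ((hG m).bd i p hp).2 (norm_nonneg (G m i p))
      rwa [← norm_mul, inv_mul_cancel₀ ((hG m).ne i p hp), norm_one] at h4
    rw [h0, norm_zero, mul_zero] at this
    linarith
  obtain ⟨K₃, k4⟩ := C.apc_cmp (r₁ := 1 + 2 * ρ) B (by linarith) (by linarith) h3
  have u4 : ∀ i l, ∀ p ∈ C.U i 1 ∩ C.U l 1,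
      u i (C.ch i p) = C.kf i p / C.kf l p * (F l p / F i p) * u l (C.ch l p) := fun i l p hp => by
    refine sub_eq_zero.1 (norm_le_zero_iff.1 (le_of_tendsto_of_tendsto'
      ((u2 i _ (u3 i p hp.1) _ tendsto_const_nhds).sub ((((hF l p (hU l hp.2)).div
        (hF i p (hU i hp.1)) (f1 i p (hU i hp.1))).const_mul _).mul
        (u2 l _ (u3 l p hp.2) _ tendsto_const_nhds))).norm ?_ fun m =>
      k4 i l _ _ _ _ _ _ (hG m) (w1 m i) (w1 m l) (hc m i) (a4 m i) (a4 m l) (a3 m i) (a3 m l)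
        p hp))
    simpa using ((w2 i).const_mul K₃).add ((w2 l).const_mul (K₃ ^ 2))
  have u6 := C.apc_sec hδ.le hN (A := K₂ * (2 * (L * 2 + K * E))) (B := B)
    (fun i z hz => u1 i z (ball_subset_ball (by linarith) hz)) (fun i p hp =>
      ⟨le_of_tendsto' (u2 _ _ (u3 _ p hp) _ tendsto_const_nhds).norm
        fun m => a5 m _ _ (u3 _ p hp), le_of_tendsto' (hF _ p (hU _ hp)).norm
        fun m => ((hG m).bd _ p (hU _ hp)).1⟩) u4
  exact apc_end hl (fun a => apc_small (hyperfilter ℕ) (by linarith) (u1 (a, 0)) (u6 _) (u2 (a, 0)))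
    (fun m a => (a1 m (a, 0)).continuousOn.mono hr') (fun m a => w1 m (a, 0))
    (fun m a => (n2_mono_set hr').trans (a3 m _)) fun a => w2 (a, 0)

end Cov

end Vale.Agent.P267W
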