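import Vale.Agent.P267S.AP
import Vale.Agent.P267W.APc

/-! P267, compact surfaces: the atlas without drift, part AP. -/

open scoped Manifold ContDiff Topology ENNReal Real

open Filter Metric Set MeasureTheory

noncomputable section

namespace Vale.Agent.P267W

open Vale.Agent.P267

set_option linter.unusedSectionVars false

variable {M : Type} [TopologicalSpace M] [ChartedSpace C2 M] [T2Space M]

namespace Cov
variable (C : Cov M)

theorem ap_du (F : C.I → M → ℂ) (η : M → ℂ) (c : ℂ) (i : C.I) :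
    C.du F (c • η) i = c • C.du F η i := by
  funext z
  simp only [du, Function.comp_apply, Pi.mul_apply, Pi.smul_apply, smul_eq_mul, mul_left_comm]

theorem ap_wt {δ : ℝ} (hδ : 0 ≤ δ) (c : ℤ) (i j : C.I) :
    C.wt δ c j / C.wt δ c i ≤ 1 / C.wt δ j.2 i := by
  rw [div_le_div_iff₀ (C.wt_pos _ _ _) (C.wt_pos _ _ _), one_mul, wt, wt, wt, ← Real.exp_add]
  have := mul_le_mul_of_nonneg_left (abs_sub_le (i.2 : ℝ) j.2 c) hδ
  exact Real.exp_le_exp.2 (by linarith)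

theorem ap_max {F : C.I → M → ℂ} {r : ℝ} (h1 : 1 < r) (h3 : r ≤ 3) {η : M → ℂ} (hη : C.Tst F r η)
    (δ : ℝ) (c : ℤ) (i₀ : C.I) : ∃ (x : C.I → ℝ) (j : C.I), (∀ i, 0 ≤ x i) ∧
      (∀ i, n2 (ball 0 1) (C.du F η i) = ENNReal.ofReal (x i) ^ 2) ∧
      ∀ i, x i ≤ C.wt δ c j * x j / C.wt δ c i := by
  classical
  have k1 : ∀ i, ∃ x, 0 ≤ x ∧ n2 (ball 0 1) (C.du F η i) = ENNReal.ofReal x ^ 2 := fun i => by
    obtain ⟨K, -, hK⟩ := n2_const 1
    obtain ⟨D, hD⟩ := (isCompact_closedBall (0 : C2) 1).exists_bound_of_continuousOn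
      (f := C.du F η i) fun z hz => (C.sm_ball (by linarith) (hη.sm i) z
        (closedBall_subset_ball h1 hz)).continuousAt.continuousWithinAt
    have k := ne_top_of_le_ne_top (ENNReal.pow_ne_top ENNReal.ofReal_ne_top)
      (hK 0 _ D fun z hz => hD z (ball_subset_closedBall hz))
    exact ⟨√(n2 (ball 0 1) (C.du F η i)).toReal, Real.sqrt_nonneg _, by
      rw [← ENNReal.ofReal_pow (Real.sqrt_nonneg _), Real.sq_sqrt ENNReal.toReal_nonneg,
        ENNReal.ofReal_toReal k]⟩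
  choose x x0 hx using k1
  obtain ⟨T, hT⟩ := hη.supp
  obtain ⟨S, hS⟩ := C.fin_slab (-T) T
  obtain ⟨j, -, hj⟩ := (insert i₀ S).exists_max_image (fun i => C.wt δ c i * x i)
    (Finset.insert_nonempty _ _)
  refine ⟨x, j, x0, hx, fun i => ?_⟩
  by_cases hi : i ∈ S
  · exact (le_div_iff₀' (C.wt_pos _ _ _)).2 (hj i (Finset.mem_insert_of_mem hi))
  · have k : n2 (ball 0 1) (C.du F η i) = 0 := by
      rw [n2_congr (g := fun _ => (0 : ℂ)) measurableSet_ball fun z hz => ?_]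
      · simp [n2]
      · have k := (C.symm_mem_U i (r := 1) (by norm_num) (mem_ball_zero_iff.1 hz)).1.1
        simp only [du, Function.comp_apply, Pi.mul_apply]
        rw [hT _ (le_of_not_ge fun h => hi (hS i _ k (abs_le.1 h))), mul_zero]
    rw [hx, pow_eq_zero_iff two_ne_zero, ENNReal.ofReal_eq_zero] at k
    exact k.trans (div_nonneg (mul_nonneg (C.wt_pos _ _ _).le (x0 j)) (C.wt_pos _ _ _).le)

theorem ap_one {F : C.I → M → ℂ} {r r₀ δ L m : ℝ} (h1 : 1 < r) (h3 : r ≤ 3) (hδ : 0 < δ)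
    (hL : 0 < L) (hm : 0 < m) (hc : ∀ (η : M → ℂ) (c : ℤ) (A : ℝ), 0 ≤ A →
      (∀ i, n2 (ball 0 1) (C.du F η i) ≤ ENNReal.ofReal (A / C.wt δ c i) ^ 2) →
      ∀ i, n2 (ball 0 r₀) (C.du F η i) ≤ ENNReal.ofReal (L * A / C.wt δ c i) ^ 2)
    (h : ¬ C.AP F r r₀ δ (L * m)) : ∃ (c : ℤ) (η : M → ℂ),
      (∀ i, ∀ p ∈ C.U i r, SmAt (C.kf i / F i * η) p) ∧
      (∀ i, n2 (ball 0 1) (C.du F η i) ≤ ENNReal.ofReal (2 / C.wt δ c i) ^ 2) ∧
      (∀ i, n2 (ball 0 r₀) (dbar (C.du F η i)) ≤ ENNReal.ofReal (1 / m / C.wt δ c i) ^ 2) ∧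
      ∃ a, 1 ≤ n2 (ball 0 1) (C.du F η (a, c)) := by
  simp only [AP, not_forall] at h
  obtain ⟨c, D, η, hD, hη, hd, i₀, hi⟩ := h
  obtain ⟨x, j, x0, hx, hj⟩ := C.ap_max h1 h3 hη δ c i₀
  have wp := C.wt_pos δ
  have k1 : m * D < C.wt δ c j * x j := lt_of_not_ge fun k => hi
    ((hc η c _ (mul_nonneg (wp _ _).le (x0 j)) (fun i => (hx i).trans_le
      (pow_le_pow_left' (ENNReal.ofReal_le_ofReal (hj i)) 2)) i₀).trans
      (pow_le_pow_left' (ENNReal.ofReal_le_ofReal (div_le_div_of_nonneg_right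
        (by rw [mul_assoc]; exact mul_le_mul_of_nonneg_left k hL.le) (wp _ _).le)) 2))
  have k2 : 0 < x j := (mul_pos_iff_of_pos_left (wp _ _)).1 ((mul_nonneg hm.le hD).trans_lt k1)
  have k3 : ‖((x j)⁻¹ : ℂ)‖ = (x j)⁻¹ := by rw [norm_inv, Complex.norm_of_nonneg k2.le]
  refine ⟨j.2, ((x j)⁻¹ : ℂ) • η, fun i p hp => ?_, fun i => ?_, fun i => ?_, j.1, ?_⟩
  · rw [mul_smul_comm]
    exact (hη.sm i p hp).smul _
  · refine ap_sq (inv_pos.2 k2).le (n2_le (g := C.du F η i) measurableSet_ball fun z _ => by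
      rw [ap_du, Pi.smul_apply, norm_smul, k3]) (hx i).le ?_
    refine (mul_le_mul_of_nonneg_left (hj i) (inv_pos.2 k2).le).trans ?_
    rw [← mul_div_assoc, mul_left_comm, inv_mul_cancel₀ k2.ne', mul_one]
    exact (C.ap_wt hδ.le c i j).trans (div_le_div_of_nonneg_right one_le_two (wp _ _).le)
  · refine ap_sq (inv_pos.2 k2).le (n2_le (g := dbar (C.du F η i)) measurableSet_ball fun z _ => by
      rw [ap_du, ap_dbar, norm_smul, k3]) (hd i) ?_
    have k4 : (x j)⁻¹ * D ≤ 1 / m * C.wt δ c j := by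
      rw [inv_mul_le_iff₀ k2, one_div, mul_left_comm, le_inv_mul_iff₀ hm, mul_comm (x j)]
      exact k1.le
    rw [← mul_div_assoc, div_eq_mul_one_div (1 / m)]
    refine (div_le_div_of_nonneg_right k4 (wp _ _).le).trans ?_
    rw [mul_div_assoc]
    exact mul_le_mul_of_nonneg_left (C.ap_wt hδ.le c i j) (by positivity)
  · have k4 := n2_le (f := C.du F η j) (g := C.du F (((x j)⁻¹ : ℂ) • η) j) (c := x j)
      (W := ball 0 1) measurableSet_ball fun z _ => by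
        rw [ap_du, Pi.smul_apply, norm_smul, k3, mul_inv_cancel_left₀ k2.ne']
    rw [hx] at k4
    exact (ENNReal.mul_le_mul_iff_right (pow_ne_zero 2 (ENNReal.ofReal_pos.2 k2).ne')
      (ENNReal.pow_ne_top ENNReal.ofReal_ne_top)).1 ((mul_one _).trans_le k4)

theorem ap_kf (i : C.I) (k : ℤ) (p : M) : C.kf (i.1, i.2 - k) ((C.g ^ k) p) = C.kf i p := by
  simp only [kf, ← C.gz_add, sub_add_cancel]

theorem ap_shift (F : C.I → M → ℂ) (η : M → ℂ) (k : ℤ) (i : C.I) :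
    C.du (fun i p => F (i.1, i.2 - k) ((C.g ^ k) p)) (η ∘ (C.g ^ k : M ≃ₜ M)) i =
      C.du F η (i.1, i.2 - k) := by
  funext z
  simp only [du, Function.comp_apply, Pi.mul_apply, Pi.div_apply, ch_symm_shift, ap_kf]

theorem ap_fr {F : C.I → M → ℂ} {r B : ℝ} (h : C.Fr F r B) (k : ℤ) :
    C.Fr (fun i p => F (i.1, i.2 - k) ((C.g ^ k) p)) r B :=
  ⟨fun i p hp => h.ne _ _ ((C.U_shift i k r p).2 hp), fun i j p hp => (C.hol_gz k).2
    (h.hol _ _ _ ⟨(C.U_shift i k r p).2 hp.1, (C.U_shift j k r p).2 hp.2⟩),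
    fun i p hp => h.bd _ _ ((C.U_shift i k r p).2 hp)⟩

theorem ap {r r₀ B δ : ℝ} (h1 : 1 < r₀) (h2 : r₀ < r) (h3 : r ≤ 3) (hδ : 0 < δ)
    {G : ℕ → C.I → M → ℂ} (hG : ∀ m, C.Fr (G m) r B) (hN : C.NoLim G r) :
    ∃ K : ℝ, 0 ≤ K ∧ ∀ᶠ n in atTop, C.AP (G n) r r₀ δ K := by
  obtain ⟨L, hL, hc⟩ := C.cov_n2 B hδ.le
  by_contra hcon
  have k1 : ∀ m : ℕ, ∃ n, m ≤ n ∧ ¬ C.AP (G n) r r₀ δ (L * ((m : ℝ) + 1)) := fun m =>
    frequently_atTop.1 (not_eventually.1 fun h => hcon ⟨_, by positivity, h⟩) m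
  choose φ hφ hn using k1
  choose c η s1 s2 s3 s4 using fun m : ℕ => C.ap_one (h1.trans h2) h3 hδ hL (Nat.cast_add_one_pos m)
    (hc _ _ h1.le (h2.le.trans h3) ((hG (φ m)).mono h2.le)) (hn m)
  have hG' := fun m => C.ap_fr (hG (φ m)) (-c m)
  have k2 : ∀ i p, ∃ x, p ∈ C.U i r → Tendsto
      (fun m => G (φ m) (i.1, i.2 - -c m) ((C.g ^ (-c m)) p)) (hyperfilter ℕ) (𝓝 x) := fun i p => by
    by_cases hp : p ∈ C.U i r
    · obtain ⟨x, hx⟩ := P299.HG_lim (hyperfilter ℕ) fun m => ((hG' m).bd i p hp).1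
      exact ⟨x, fun _ => hx⟩
    · exact ⟨0, fun h => absurd h hp⟩
  choose F hF using k2
  have w : ∀ m (i : C.I), C.wt δ (c m) (i.1, i.2 - -c m) = C.wt δ 0 i := fun m i => by simp [wt]
  refine C.ap_core h1 h2 h3 hδ hG' hF (η := fun m => η m ∘ (C.g ^ (-c m) : M ≃ₜ M))
    (fun m i p hp => ?_) (fun m i => ?_) (ε := fun m => 1 / ((m : ℝ) + 1)) (fun m => by positivity)
    tendsto_one_div_add_atTop_nhds_zero_nat (fun m i => ?_) (fun m => ?_)
    (hN φ (fun m => -c m) F (tendsto_atTop_mono hφ tendsto_id) hF)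
  · refine ((C.sm_gz (-c m)).2 (s1 m _ _ ((C.U_shift i _ r p).2 hp))).congr
      (.of_forall fun q => ?_)
    simp only [Function.comp_apply, Pi.mul_apply, Pi.div_apply, ap_kf]
  · rw [ap_shift, ← w m i]
    exact s2 m _
  · rw [ap_shift, ← w m i]
    exact s3 m _
  · obtain ⟨a, ha⟩ := s4 m
    refine ⟨a, ?_⟩
    rw [ap_shift]
    simpa using ha

end Cov

end Vale.Agent.P267W
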