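import Vale.Agent.P267S.Fin
import Vale.Agent.P267W.CV
import Vale.Agent.P267W.SDefs2

/-! P267, compact surfaces: the atlas without drift, part Fin. -/

open scoped Manifold ContDiff Topology ENNReal Real

open Filter Metric Set MeasureTheory

noncomputable section

namespace Vale.Agent.P267W

open Vale.Agent.P267

set_option linter.unusedSectionVars false

variable {M : Type} [TopologicalSpace M] [ChartedSpace C2 M] [T2Space M]

namespace Cov
variable (C : Cov M)

/-- A function in the chart `j` minus the transform of a function in the chart `l`. -/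
def finD (F : C.I → M → ℂ) (j l : C.I) (x y : C2 → ℂ) (z : C2) : ℂ :=
  x z - (F j / F l) ((C.ch j).symm z) * y (C.ch l ((C.ch j).symm z))

theorem finD_apply (F : C.I → M → ℂ) {j : C.I} (l : C.I) (x y : C2 → ℂ) {p : M}
    (hp : p ∈ (C.ch j).source) :
    C.finD F j l x y (C.ch j p) = x (C.ch j p) - F j p / F l p * y (C.ch l p) := by
  simp only [finD, (C.ch j).left_inv hp, Pi.div_apply]

theorem fin_two : ∃ L : ℝ, 0 < L ∧ ∀ (j l : C.I) (O : Set M), IsOpen O → O ⊆ C.U j 3 ∩ C.U l 3 →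
    ∀ {E : Type} [NormedAddCommGroup E] (w x y : C2 → E) (c : ℝ), 0 ≤ c →
      AEStronglyMeasurable x (volume.restrict (C.ch j '' O)) →
      (∀ p ∈ O, ‖w (C.ch j p)‖ ≤ ‖x (C.ch j p)‖ + c * ‖y (C.ch l p)‖) →
      n2 (C.ch j '' O) w ≤ 2 * n2 (C.ch j '' O) x +
        2 * (ENNReal.ofReal (c * L) ^ 2 * n2 (C.ch l '' O) y) := by
  obtain ⟨L, hL, h⟩ := C.cv_n2
  refine ⟨L, hL, fun j l O hO hs E _ w x y c hc hx hw => ?_⟩
  have hj := (C.isOpen_img j hO fun p hp => (hs hp).1.1).measurableSet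
  have hl := (C.isOpen_img l hO fun p hp => (hs hp).2.1).measurableSet
  have h1 := n2_le_add (f := w) (h := fun z => c * ‖y (C.ch l ((C.ch j).symm z))‖) hj hx (by
    rintro _ ⟨p, hp, rfl⟩
    rw [(C.ch j).left_inv (hs hp).1.1]
    exact (hw p hp).trans (add_le_add le_rfl (le_abs_self _)))
  have h2 := n2_le (f := fun z => c * ‖y (C.ch l ((C.ch j).symm z))‖)
    (g := (y ∘ C.ch l) ∘ (C.ch j).symm) hj (c := c) fun z _ => by
      rw [Real.norm_of_nonneg (by positivity)]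
      exact le_rfl
  have h3 := h j l O hO hs (y ∘ C.ch l)
  rw [n2_congr (f := (y ∘ C.ch l) ∘ (C.ch l).symm) (g := y) hl fun z hz => by
    simp only [Function.comp_apply, (C.mem_img (fun p hp => (hs hp).2.1) hz).2]] at h3
  rw [ENNReal.ofReal_mul hc, mul_pow, mul_assoc]
  exact h1.trans (add_le_add le_rfl (mul_le_mul' le_rfl (h2.trans (mul_le_mul' le_rfl h3))))

variable {C} in
theorem fin_sm {F : C.I → M → ℂ} {r B : ℝ} (hF : C.Fr F r B) {j l : C.I} {p : M}
    (hp : p ∈ C.U j r ∩ C.U l r) {x y : C2 → ℂ} (hx : ContDiffAt ℝ ∞ x (C.ch j p))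
    (hy : ContDiffAt ℝ ∞ y (C.ch l p)) : ContDiffAt ℝ ∞ (C.finD F j l x y) (C.ch j p) ∧
      dbar (C.finD F j l x y) (C.ch j p) = dbar x (C.ch j p) - (F j p / F l p) •
        (dbar y (C.ch l p)).comp
          ((fderiv ℂ (C.ch l ∘ (C.ch j).symm) (C.ch j p)).restrictScalars ℝ) := by
  have hq := ((C.isCh j).hol p hp.1.1 _).1 (hF.hol j l p hp)
  have hT := (C.isCh j).tr (C.isCh l) hp.1.1 hp.2.1
  have e : (C.ch l ∘ (C.ch j).symm) (C.ch j p) = C.ch l p := by
    simp only [Function.comp_apply, (C.ch j).left_inv hp.1.1]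
  have hq' : ContDiffAt ℝ ∞ ((F j / F l) ∘ (C.ch j).symm) (C.ch j p) :=
    (hq.contDiffAt (n := ∞)).restrict_scalars ℝ
  have hy' : ContDiffAt ℝ ∞ (y ∘ (C.ch l ∘ (C.ch j).symm)) (C.ch j p) :=
    ContDiffAt.comp _ (e.symm ▸ hy) ((hT.contDiffAt (n := ∞)).restrict_scalars ℝ)
  have e' : C.finD F j l x y = x - (F j / F l) ∘ (C.ch j).symm * y ∘ (C.ch l ∘ (C.ch j).symm) := rfl
  have n0 : (∞ : WithTop ℕ∞) ≠ 0 := by simp
  refine ⟨hx.sub (hq'.mul hy'), ?_⟩
  rw [e', dbar_sub' (hx.differentiableAt n0)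
    ((hq'.differentiableAt n0).mul (hy'.differentiableAt n0)),
    dbar_mul' (hq'.differentiableAt n0) (hy'.differentiableAt n0), dbar_hol' hq.differentiableAt,
    dbar_comp (e.symm ▸ hy.differentiableAt n0) hT.differentiableAt, e]
  ext v
  simp [(C.ch j).left_inv hp.1.1]

variable {C} in
theorem fin_om {F : C.I → M → ℂ} {r B : ℝ} (hF : C.Fr F r B) {j l : C.I} {p : M}
    (hp : p ∈ C.U j r ∩ C.U l r) (α : C.I → M → C2 →L[ℝ] ℂ) (β : M → C2 →L[ℝ] ℂ) :
    C.cmp (C.ch j) (C.df F α j l) (C.ch j p) = C.om F α β j (C.ch j p) - (F j p / F l p) •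
      (C.om F α β l (C.ch l p)).comp
        ((fderiv ℂ (C.ch l ∘ (C.ch j).symm) (C.ch j p)).restrictScalars ℝ) := by
  have h1 := C.cmp_lin (α := α j) (β := α l) (C.ch j) (fun q => F j q / F l q) (C.ch j p)
  rw [om, om, ← C.cmp_tr (C.isCh j) (C.isCh l) hp.1.1 hp.2.1, C.cmp_lin, C.cmp_lin]
  refine h1.trans ?_
  rw [(C.ch j).left_inv hp.1.1, smul_sub, smul_smul, div_mul_cancel₀ _ (hF.ne l p hp.2)]
  abel

theorem s2_fin {r r' δ A : ℝ} (h1 : 1 < r') (h2 : r' < r) (h3 : r ≤ 3) (hδ : 0 < δ)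
    (hA : 0 ≤ A) (B : ℝ) : ∃ K : ℝ, 0 ≤ K ∧ ∀ F, C.Fr F r B → ∀ c D α β, C.Dat F r δ c D α →
      C.Wb F r δ c (A * D) α β → C.Wc F r α β → ∃ f : C.I → M → ℂ,
        (∀ i, ∀ p ∈ C.U i r', ‖f i p‖ ≤ K * D * C.wt δ c i) ∧
        ∀ i j, ∀ p ∈ C.U i r' ∩ C.U j r', C.Prim (C.df F α i j) (F i * (f i - f j)) p := by
  obtain ⟨s, s1, s2⟩ := exists_between h2
  have s3 : s ≤ 3 := by linarith
  obtain ⟨K₁, k1, hlp⟩ := lp (by linarith : 0 < s) s2
  obtain ⟨L, hL, htwo⟩ := C.fin_two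
  obtain ⟨L₁, hL₁, htr⟩ := C.geo_tr
  obtain ⟨L₂, hL₂, hcn⟩ := C.cmp_norm
  obtain ⟨ρ, hρ, hball⟩ := C.geo_ball s1 (by linarith) (h1.trans s1) (by linarith)
  obtain ⟨K₂, k2, hin⟩ := intr hρ
  set e := Real.exp (2 * δ * C.R) with he
  have e0 : 0 < e := Real.exp_pos _
  refine ⟨|B| * K₂ * (4 * K₁ * A * (1 + B ^ 2 * L * e) + L₂ * (1 + B ^ 2 * e)), by positivity,
    fun F hF c D α β hα hb hw => ?_⟩
  have D0 := hα.pos
  have w0 := fun j => (C.wt_pos δ c j).le
  choose f f1 f2 f3 f4 using fun j => hlp (C.om F α β j) (A * D * C.wt δ c j)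
    (mul_nonneg (mul_nonneg hA D0) (w0 j)) (hb.anti j) (hb.mem j) (hb.bd j) (hw j)
  let O : C.I → C.I → Set M := fun j l => C.U j s ∩ C.U l s
  have O1 : ∀ j l, IsOpen (O j l) := fun j l => (C.isOpen_U j s).inter (C.isOpen_U l s)
  have O2 : ∀ j l {r₁ : ℝ}, s ≤ r₁ → O j l ⊆ C.U j r₁ ∩ C.U l r₁ := fun j l _ h =>
    inter_subset_inter (C.U_mono j h) (C.U_mono l h)
  have O3 : ∀ j l, IsOpen (C.ch j '' O j l) := fun j l =>
    C.isOpen_img j (O1 j l) fun p hp => hp.1.1
  have O4 : ∀ j l, C.ch j '' O j l ⊆ ball 0 s := fun j l =>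
    (image_mono inter_subset_left).trans (C.img_U j (by linarith)).subset
  have O5 : ∀ j l, C.ch l '' O j l ⊆ ball 0 s := fun j l =>
    (image_mono inter_subset_right).trans (C.img_U l (by linarith)).subset
  have hr : ∀ {j l : C.I} {p : M}, p ∈ O j l → ∀ z : ℂ, ‖F j p / F l p * z‖ ≤ B ^ 2 * ‖z‖ :=
    fun hp z => (norm_mul_le _ _).trans
      (mul_le_mul_of_nonneg_right (hF.ratio (O2 _ _ s2.le hp)) (norm_nonneg _))
  let d : C.I → C.I → ℕ → C2 → ℂ := fun j l n => C.finD F j l (f j n) (f l n)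
  have d1 : ∀ j l n, ∀ z ∈ C.ch j '' O j l, ContDiffAt ℝ ∞ (d j l n) z := by
    rintro j l n _ ⟨p, hp, rfl⟩
    exact (fin_sm hF (O2 j l s2.le hp) (f1 j n).contDiffAt (f1 l n).contDiffAt).1
  have d2 : ∀ j l n, n2 (C.ch j '' O j l) (d j l n) ≤ ENNReal.ofReal
      (2 * (K₁ * (A * D * C.wt δ c j) + B ^ 2 * L * (K₁ * (A * D * C.wt δ c l)))) ^ 2 := by
    intro j l n
    have a0 : ∀ j, 0 ≤ K₁ * (A * D * C.wt δ c j) := fun j => by have := w0 j; positivity
    refine (htwo j l _ (O1 j l) (O2 j l s3) (d j l n) (f j n) (f l n) (B ^ 2) (sq_nonneg B)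
      (f1 j n).continuous.aestronglyMeasurable fun p hp => ?_).trans
      (sq_add_le (a0 j) (mul_nonneg (by positivity) (a0 l))
        ((n2_mono_set (O4 j l)).trans (f2 j n)) ?_)
    · simp only [d, C.finD_apply F l _ _ hp.1.1]
      exact (norm_sub_le _ _).trans (add_le_add le_rfl (hr hp _))
    · rw [ENNReal.ofReal_mul (p := B ^ 2 * L) (by positivity), mul_pow]
      exact mul_le_mul' le_rfl ((n2_mono_set (O5 j l)).trans (f2 l n))
  have hov : ∀ j l, ∃ v : C2 → ℂ, (∀ z ∈ C.ch j '' O j l, ContDiffAt ℝ ∞ v z ∧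
      dbar v z = C.cmp (C.ch j) (C.df F α j l) z) ∧
      Tendsto (fun n => n2 (C.ch j '' O j l) (d j l n - v)) atTop (𝓝 0) := fun j l => by
    refine ov (O3 j l) (d1 j l) (fun n => (d2 j l n).trans_lt
      (ENNReal.pow_ne_top ENNReal.ofReal_ne_top).lt_top) ?_ ?_ ?_
    · refine fin_sq (fin_lim (f3 j) (f3 l) (B ^ 2 * L)) fun x => ?_
      refine (htwo j l _ (O1 j l) (O2 j l s3) _ (f j x.1 - f j x.2) (f l x.1 - f l x.2) (B ^ 2)
        (sq_nonneg B) ((f1 j _).continuous.sub (f1 j _).continuous).aestronglyMeasurable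
        fun p hp => ?_).trans (add_le_add (mul_le_mul' le_rfl (n2_mono_set (O4 j l)))
          (mul_le_mul' le_rfl (mul_le_mul' le_rfl (n2_mono_set (O5 j l)))))
      refine le_trans (le_of_eq ?_) ((norm_sub_le _ _).trans (add_le_add le_rfl (hr hp _)))
      simp only [d, Pi.sub_apply, C.finD_apply F l _ _ hp.1.1]
      congr 1
      ring
    · rintro _ ⟨p, hp, rfl⟩
      obtain ⟨a, ha⟩ := hα.cl j l p (O2 j l s2.le hp)
      exact ⟨_, (C.prim_iff hp.1.1).1 ha⟩
    · have hm : AEStronglyMeasurable (C.om F α β j) (volume.restrict (C.ch j '' O j l)) :=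
        (aesm_anti measurableSet_ball (hb.anti j) fun a => (hb.mem j a).1).mono_measure
          (Measure.restrict_mono ((O4 j l).trans (ball_subset_ball s2.le)) le_rfl)
      refine fin_sq (fin_lim (f4 j) (f4 l) (B ^ 2 * L₁ * L)) fun n => ?_
      refine (htwo j l _ (O1 j l) (O2 j l s3) _ (dbar (f j n) - C.om F α β j)
        (dbar (f l n) - C.om F α β l) (B ^ 2 * L₁) (by positivity)
        ((continuous_iff_continuousAt.2 fun z =>
          (dbar_sm (f1 j n).contDiffAt).continuousAt).aestronglyMeasurable.sub hm)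
        fun p hp => ?_).trans (add_le_add (mul_le_mul' le_rfl (n2_mono_set (O4 j l)))
          (mul_le_mul' le_rfl (mul_le_mul' le_rfl (n2_mono_set (O5 j l)))))
      have hp' := O2 j l s2.le hp
      have e1 : (dbar (d j l n) - C.cmp (C.ch j) (C.df F α j l)) (C.ch j p) =
          (dbar (f j n) - C.om F α β j) (C.ch j p) - (F j p / F l p) •
            ((dbar (f l n) - C.om F α β l) (C.ch l p)).comp
              ((fderiv ℂ (C.ch l ∘ (C.ch j).symm) (C.ch j p)).restrictScalars ℝ) := by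
        simp only [Pi.sub_apply, d]
        rw [(fin_sm hF hp' (f1 j n).contDiffAt (f1 l n).contDiffAt).2, fin_om hF hp' α β,
          ContinuousLinearMap.sub_comp, smul_sub]
        abel
      rw [e1]
      refine (norm_sub_le _ _).trans (add_le_add le_rfl ?_)
      rw [norm_smul, mul_assoc, mul_comm L₁]
      refine mul_le_mul (hF.ratio hp') ((ContinuousLinearMap.opNorm_comp_le _ _).trans
        (mul_le_mul_of_nonneg_left ?_ (norm_nonneg _))) (norm_nonneg _) (sq_nonneg B)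
      rw [ContinuousLinearMap.norm_restrictScalars]
      exact htr j l p (O2 j l s3 hp)
  choose v v1 v2 using hov
  have dm : ∀ j l n {W : Set C2}, W ⊆ C.ch j '' O j l →
      AEStronglyMeasurable (d j l n - v j l) (volume.restrict W) := fun j l n W hW =>
    (ContinuousOn.aestronglyMeasurable (fun z hz =>
      ((d1 j l n z hz).sub (v1 j l z hz).1).continuousAt.continuousWithinAt)
      (O3 j l).measurableSet).mono_measure (Measure.restrict_mono hW le_rfl)
  have coc : ∀ j l m, ∀ p ∈ O j l ∩ C.U m s,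
      v j l (C.ch j p) - v j m (C.ch j p) + F j p / F l p * v l m (C.ch l p) = 0 := by
    intro j l m
    have o1 : IsOpen (O j l ∩ C.U m s) := (O1 j l).inter (C.isOpen_U m s)
    have o2 := C.isOpen_img j o1 fun p hp => hp.1.1.1
    have i1 : C.ch j '' (O j l ∩ C.U m s) ⊆ C.ch j '' O j l := image_mono inter_subset_left
    have i2 : C.ch j '' (O j l ∩ C.U m s) ⊆ C.ch j '' O j m :=
      image_mono fun p hp => ⟨hp.1.1, hp.2⟩
    have i3 : C.ch l '' (O j l ∩ C.U m s) ⊆ C.ch l '' O l m :=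
      image_mono fun p hp => ⟨hp.1.2, hp.2⟩
    have h0 := n2_eq_zero (f := C.finD F j l (v j l - v j m) (-v l m)) o2 (by
      rintro _ ⟨p, hp, rfl⟩
      exact (fin_sm hF (O2 j l s2.le hp.1) ((v1 j l _ (i1 ⟨p, hp, rfl⟩)).1.sub
        (v1 j m _ (i2 ⟨p, hp, rfl⟩)).1)
        (v1 l m _ (i3 ⟨p, hp, rfl⟩)).1.neg).1.continuousAt.continuousWithinAt) (by
      refine le_antisymm (ge_of_tendsto' (fin_lim (fin_lim (v2 j l) (v2 j m) 1) (v2 l m)
        (B ^ 2 * L)) fun n => ?_) bot_le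
      refine (htwo j l _ o1 (inter_subset_left.trans (O2 j l s3)) _
        (d j m n - v j m - (d j l n - v j l)) (d l m n - v l m) (B ^ 2) (sq_nonneg B)
        ((dm j m n i2).sub (dm j l n i1)) fun p hp => ?_).trans (add_le_add (mul_le_mul' le_rfl ?_)
          (mul_le_mul' le_rfl (mul_le_mul' le_rfl (n2_mono_set i3))))
      · refine le_trans (le_of_eq ?_) ((norm_sub_le _ _).trans (add_le_add le_rfl (hr hp.1 _)))
        have n1 := hF.ne l p (C.U_mono l s2.le hp.1.2)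
        simp only [d, Pi.sub_apply, Pi.neg_apply, C.finD_apply F _ _ _ hp.1.1.1,
          C.finD_apply F _ _ _ hp.1.2.1]
        congr 1
        field_simp
        ring
      · rw [ENNReal.ofReal_one, one_pow, one_mul]
        refine (n2_le_add (h := d j m n - v j m) o2.measurableSet (dm j l n i1) fun z _ => ?_).trans
          (add_le_add (mul_le_mul' le_rfl (n2_mono_set i1)) (mul_le_mul' le_rfl (n2_mono_set i2)))
        exact (norm_sub_le _ _).trans_eq (add_comm _ _))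
    intro p hp
    have h3 := h0 _ ⟨p, hp, rfl⟩
    rw [C.finD_apply F _ _ _ hp.1.1.1] at h3
    simpa using h3
  refine ⟨fun j p => (F j p)⁻¹ * v j (C.idx p) (C.ch j p), fun j p hp => ?_, fun i j p hp => ?_⟩
  · have hl := C.mem_U_idx p
    beta_reduce
    generalize C.idx p = l at hl ⊢
    have hW := hball j l p ⟨hp, hl⟩
    have w1 : C.wt δ c l ≤ e * C.wt δ c j := C.wt_nbr hδ.le c (C.lev_nbr hp.1 hl.1)
    have w2 : ∀ i, C.wt (2 * δ) c i ≤ C.wt δ c i := fun i => C.wt_mono (by linarith) c i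
    have wj := w0 j
    have wl := w0 l
    have h3 := hin (C.ch j p) (v j l)
      (2 * (2 * (K₁ * (A * D * C.wt δ c j) + B ^ 2 * L * (K₁ * (A * D * C.wt δ c l))) + 0))
      (L₂ * (D * C.wt δ c j + B ^ 2 * (D * C.wt δ c l))) (by positivity) (fun z hz => by
        obtain ⟨q, hq, rfl⟩ := hW hz
        have hq' := O2 j l s2.le hq
        refine ⟨(v1 j l _ ⟨q, hq, rfl⟩).1, ?_⟩
        rw [(v1 j l _ ⟨q, hq, rfl⟩).2]
        refine (hcn j _ q (O2 j l s3 hq).1).1.trans (mul_le_mul_of_nonneg_left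
          ((norm_sub_le _ _).trans (add_le_add ((hα.bd j q hq'.1).trans
            (mul_le_mul_of_nonneg_left (w2 j) D0)) ?_)) hL₂.le)
        rw [norm_smul]
        exact mul_le_mul (hF.ratio hq') ((hα.bd l q hq'.2).trans
          (mul_le_mul_of_nonneg_left (w2 l) D0)) (norm_nonneg _) (sq_nonneg B)) (by
        refine (n2_mono_set hW).trans (le_trans (ge_of_tendsto' ((tendsto_const_nhds (x := 2 *
          ENNReal.ofReal (2 * (K₁ * (A * D * C.wt δ c j) +
            B ^ 2 * L * (K₁ * (A * D * C.wt δ c l)))) ^ 2)).add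
          (ENNReal.Tendsto.const_mul (a := 2) (v2 j l) (Or.inr ENNReal.ofNat_ne_top))) fun n => ?_)
          (sq_add_le (by positivity) le_rfl le_rfl bot_le))
        refine (n2_le_add (g := d j l n - v j l) (h := d j l n) (O3 j l).measurableSet
          (dm j l n subset_rfl) fun z _ => ?_).trans ?_
        · refine le_trans (le_of_eq ?_) (norm_sub_le _ _)
          rw [Pi.sub_apply, sub_sub_cancel_left, norm_neg]
        · rw [add_comm]
          exact add_le_add (mul_le_mul' le_rfl (d2 j l n)) le_rfl)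
    have h4 := (hF.bd j p (C.U_mono j h2.le hp)).2.trans (le_abs_self B)
    refine (norm_mul_le _ _).trans ((mul_le_mul h4 h3 (norm_nonneg _) (abs_nonneg B)).trans ?_)
    have h5 := mul_le_mul_of_nonneg_left w1
      (by positivity : 0 ≤ |B| * K₂ * (D * B ^ 2 * (4 * K₁ * A * L + L₂)))
    linarith
  · have hp' : p ∈ O i j := ⟨C.U_mono i s1.le hp.1, C.U_mono j s1.le hp.2⟩
    refine Prim.congr (a := v i j ∘ C.ch i) ((C.prim_iff hp.1.1).2 ?_) EventuallyEq.rfl ?_
    · filter_upwards [(O3 i j).mem_nhds ⟨p, hp', rfl⟩] with z hz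
      have e1 : (v i j ∘ C.ch i) ∘ (C.ch i).symm =ᶠ[𝓝 z] v i j := by
        filter_upwards [(O3 i j).mem_nhds hz] with y hy
        simp only [Function.comp_apply, (C.mem_img (fun q hq => hq.1.1) hy).2]
      exact ⟨(v1 i j z hz).1.congr_of_eventuallyEq e1, (dbar_congr' e1).trans (v1 i j z hz).2⟩
    · filter_upwards [(O1 i j).mem_nhds hp'] with q hq
      have h3 := coc i j (C.idx q) q ⟨hq, C.U_mono _ (h1.trans s1).le (C.mem_U_idx q)⟩
      have n1 := hF.ne i q (C.U_mono i s2.le hq.1)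
      simp only [Function.comp_apply, Pi.mul_apply, Pi.sub_apply]
      rw [mul_sub, mul_inv_cancel_left₀ n1, ← mul_assoc, ← div_eq_mul_inv]
      linear_combination h3

end Cov

end Vale.Agent.P267W
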