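import Vale.Agent.P267S.Wb
import Vale.Agent.P267W.CV

/-! P267, compact surfaces: the atlas without drift, part Wb. -/

open scoped Manifold ContDiff Topology ENNReal Real

open Filter Metric Set MeasureTheory

noncomputable section

namespace Vale.Agent.P267W

open Vale.Agent.P267

set_option linter.unusedSectionVars false

variable {M : Type} [TopologicalSpace M] [ChartedSpace C2 M] [T2Space M]

namespace Cov
variable (C : Cov M)

variable {F : C.I → M → ℂ} {r r₀ B : ℝ} {b : C.I → C2 → C2 →L[ℝ] ℂ}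

theorem glue_eq {p : M} {S : Finset C.I} (hS : ∀ i, p ∈ (C.ch i).source → i ∈ S) :
    C.glue F r₀ b p =
      ∑ i ∈ S, (C.U i r₀).indicator (fun q => (F i q)⁻¹ • C.pb i (b i) q) p := by
  refine finsum_eq_sum_of_support_subset _ fun i hi => ?_
  exact hS i (mem_of_indicator_ne_zero hi).1

theorem glue_anti (h : ∀ i z, Anti (b i z)) (p : M) : Anti (C.glue F r₀ b p) := by
  obtain ⟨m, hm⟩ := C.geo_nbr
  obtain ⟨S, -, hS, -⟩ := hm (C.idx p)
  rw [C.glue_eq fun i hi => hS i p (C.ac_src p) hi]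
  refine Anti.sum fun i _ => ?_
  by_cases hp : p ∈ C.U i r₀
  · rw [indicator_of_mem hp]
    exact (C.pb_anti (h _ _)).smul _
  · rw [indicator_of_notMem hp]
    exact anti_zero

/-- One summand of the glued form in the chart `j`. -/
def wbG (F : C.I → M → ℂ) (r₀ : ℝ) (b : C.I → C2 → C2 →L[ℝ] ℂ) (i j : C.I) :
    C2 → C2 →L[ℝ] ℂ := C.cmp (C.ch j) fun q => F j q •
      (C.U i r₀).indicator (fun q => (F i q)⁻¹ • C.pb i (b i) q) q

theorem wb_off (h3 : r ≤ 3) (i j : C.I) : ∀ z ∈ ball (0 : C2) r, C.wbG F r₀ b i j z =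
    (C.ch j '' (C.U j r ∩ C.U i r₀)).indicator (C.wbG F r₀ b i j) z := by
  intro z hz
  by_cases hV : z ∈ C.ch j '' (C.U j r ∩ C.U i r₀)
  · rw [indicator_of_mem hV]
  · rw [indicator_of_notMem hV]
    obtain ⟨g1, g2⟩ := C.symm_mem_U j (h3.trans (by norm_num)) (mem_ball_zero_iff.1 hz)
    have hp : (C.ch j).symm z ∉ C.U i r₀ := fun hp => hV ⟨_, ⟨g1, hp⟩, g2⟩
    ext1 v
    simp only [wbG, cmp, indicator_of_notMem hp, ContinuousLinearMap.comp_apply, smul_apply,
      zero_apply, smul_zero]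

theorem wb_on {i j : C.I} {p : M} (hj : p ∈ (C.ch j).source) (hi : p ∈ C.U i r₀) :
    C.wbG F r₀ b i j (C.ch j p) = (F j p / F i p) • (b i (C.ch i p)).comp
      ((fderiv ℂ (C.ch i ∘ (C.ch j).symm) (C.ch j p)).restrictScalars ℝ) := by
  rw [← C.cmp_pb (b i) hi.1, ← C.cmp_tr (C.isCh j) (C.isCh i) hj hi.1, wbG, C.ac_cmp hj,
    C.ac_cmp hj, indicator_of_mem hi, smul_smul, ContinuousLinearMap.smul_comp, div_eq_mul_inv]

theorem wb_anti (ha : ∀ i z, Anti (b i z)) (i j : C.I) (z : C2) : Anti (C.wbG F r₀ b i j z) := by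
  refine C.cmp_anti _ (Anti.smul ?_ _)
  by_cases hp : (C.ch j).symm z ∈ C.U i r₀
  · rw [indicator_of_mem hp]
    exact (C.pb_anti (ha _ _)).smul _
  · rw [indicator_of_notMem hp]
    exact anti_zero

theorem wb_n2 (B : ℝ) : ∃ L : ℝ, 0 ≤ L ∧ ∀ {F : C.I → M → ℂ} {r r₀ : ℝ}
    {b : C.I → C2 → C2 →L[ℝ] ℂ}, C.Fr F r B → r₀ ≤ r → r ≤ 3 → ∀ i j,
      n2 (ball 0 r) (C.wbG F r₀ b i j) ≤ ENNReal.ofReal L ^ 2 * n2 univ (b i) := by
  obtain ⟨L, L0, hL⟩ := C.geo_tr
  obtain ⟨L', L0', hL'⟩ := C.cv_n2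
  refine ⟨B ^ 2 * L * L', by positivity, fun {F r r₀ b} hF h2 h3 i j => ?_⟩
  have hW : IsOpen (C.U j r ∩ C.U i r₀) := (C.isOpen_U _ _).inter (C.isOpen_U _ _)
  have hj : C.U j r ∩ C.U i r₀ ⊆ (C.ch j).source := fun p hp => hp.1.1
  have hi : C.U j r ∩ C.U i r₀ ⊆ (C.ch i).source := fun p hp => hp.2.1
  have hV := (C.isOpen_img j hW hj).measurableSet
  have h33 : C.U j r ∩ C.U i r₀ ⊆ C.U j 3 ∩ C.U i 3 :=
    inter_subset_inter (C.U_mono j h3) (C.U_mono i (h2.trans h3))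
  rw [n2_congr measurableSet_ball (C.wb_off h3 i j), n2_indicator hV]
  refine (n2_mono_set inter_subset_right).trans ?_
  refine (n2_le (g := (fun p => b i (C.ch i p)) ∘ (C.ch j).symm) (c := B ^ 2 * L) hV ?_).trans ?_
  · rintro z ⟨p, hp, rfl⟩
    rw [C.wb_on hp.1.1 hp.2, norm_smul, Function.comp_apply, (C.ch j).left_inv hp.1.1, mul_assoc]
    refine mul_le_mul (hF.ratio ⟨hp.1, C.U_mono i h2 hp.2⟩) ?_ (norm_nonneg _) (sq_nonneg _)
    rw [mul_comm]
    refine (ContinuousLinearMap.opNorm_comp_le _ _).trans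
      (mul_le_mul_of_nonneg_left ?_ (norm_nonneg _))
    rw [ContinuousLinearMap.norm_restrictScalars]
    exact hL _ _ _ (h33 hp)
  · rw [ENNReal.ofReal_mul (p := B ^ 2 * L) (by positivity), mul_pow, mul_assoc]
    refine mul_le_mul_right ((hL' j i _ hW h33 _).trans (mul_le_mul_right ?_ _)) _
    rw [n2_congr (g := b i) (C.isOpen_img i hW hi).measurableSet fun z hz => by
      rw [Function.comp_apply, (C.mem_img hi hz).2]]
    exact n2_mono_set (subset_univ _)

theorem wb_meas (hF : C.Fr F r B) (h2 : r₀ ≤ r) (h3 : r ≤ 3) (ha : ∀ i z, Anti (b i z))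
    (hm : ∀ i a, MemLp (fun z => b i z (ee a)) 2 volume) (i j : C.I) (a : Fin 2) :
    AEStronglyMeasurable (fun z => C.wbG F r₀ b i j z (ee a)) (volume.restrict (ball 0 r)) := by
  have hW : IsOpen (C.U j r ∩ C.U i r₀) := (C.isOpen_U _ _).inter (C.isOpen_U _ _)
  have hj : C.U j r ∩ C.U i r₀ ⊆ (C.ch j).source := fun p hp => hp.1.1
  have hi : C.U j r ∩ C.U i r₀ ⊆ (C.ch i).source := fun p hp => hp.2.1
  have hV := (C.isOpen_img j hW hj).measurableSet
  have hb : ∀ k, AEStronglyMeasurable ((fun p => b i (C.ch i p) (ee k)) ∘ (C.ch j).symm)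
      (volume.restrict (C.ch j '' (C.U j r ∩ C.U i r₀))) := fun k => by
    refine C.cv_meas hW hj hi ((hm i k).1.restrict.congr ?_)
    filter_upwards [ae_restrict_mem (C.isOpen_img i hW hi).measurableSet] with z hz
    rw [Function.comp_apply, (C.mem_img hi hz).2]
  have hφ : ContinuousOn ((F j / F i) ∘ (C.ch j).symm) (C.ch j '' (C.U j r ∩ C.U i r₀)) := by
    rintro z ⟨p, hp, rfl⟩
    exact (((C.isCh j).hol p hp.1.1 _).1
      (hF.hol j i p ⟨hp.1, C.U_mono i h2 hp.2⟩)).continuousAt.continuousWithinAt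
  have hT : ∀ k, ContinuousOn
      (fun z => (starRingEnd ℂ) (fderiv ℂ (C.ch i ∘ (C.ch j).symm) z (ee a) k))
      (C.ch j '' (C.U j r ∩ C.U i r₀)) := fun k => by
    rintro z ⟨p, hp, rfl⟩
    have h := ((C.isCh j).tr (C.isCh i) hp.1.1 hp.2.1).fderiv.continuousAt
    exact (Complex.continuous_conj.continuousAt.comp ((continuous_apply k).continuousAt.comp
      (h.clm_apply continuousAt_const))).continuousWithinAt
  have h1 : AEStronglyMeasurable (fun z => C.wbG F r₀ b i j z (ee a))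
      (volume.restrict (C.ch j '' (C.U j r ∩ C.U i r₀))) := by
    refine ((hφ.aestronglyMeasurable hV).mul ((((hT 0).aestronglyMeasurable hV).mul (hb 0)).add
      (((hT 1).aestronglyMeasurable hV).mul (hb 1)))).congr ?_
    filter_upwards [ae_restrict_mem hV] with z hz
    obtain ⟨p, hp, rfl⟩ := hz
    rw [C.wb_on hp.1.1 hp.2, smul_apply, ContinuousLinearMap.comp_apply,
      (ha i _).apply]
    simp only [Pi.mul_apply, Pi.add_apply, Function.comp_apply, (C.ch j).left_inv hp.1.1,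
      Pi.div_apply, smul_eq_mul, ContinuousLinearMap.coe_restrictScalars']
  refine (((aestronglyMeasurable_indicator_iff hV).2 h1).restrict).congr ?_
  filter_upwards [ae_restrict_mem measurableSet_ball] with z hz
  rw [C.wb_off h3 i j z hz]
  by_cases hz' : z ∈ C.ch j '' (C.U j r ∩ C.U i r₀)
  · rw [indicator_of_mem hz', indicator_of_mem hz']
  · rw [indicator_of_notMem hz', indicator_of_notMem hz', zero_apply]

theorem wb_comp {W : Set C2} (hW : MeasurableSet W) (f : C2 → C2 →L[ℝ] ℂ) (a : Fin 2) :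
    n2 W (fun z => f z (ee a)) ≤ n2 W f := by
  have h := n2_le (f := fun z => f z (ee a)) (g := f) (c := 1) hW fun z _ => by
    rw [one_mul]; exact norm_ee_le _ _
  rwa [ENNReal.ofReal_one, one_pow, one_mul] at h

/-- One summand of the glued form is measurable in every chart. -/
theorem pb_meas (hF : C.Fr F r B) (h2 : r₀ ≤ r) (h3 : r ≤ 3) (ha : ∀ i z, Anti (b i z))
    (hm : ∀ i a, MemLp (fun z => b i z (ee a)) 2 volume) (i j : C.I) (a : Fin 2) :
    MemLp (fun z => C.cmp (C.ch j) (fun q => F j q •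
      (C.U i r₀).indicator (fun q => (F i q)⁻¹ • C.pb i (b i) q) q) z (ee a)) 2
      (volume.restrict (ball 0 r)) := by
  obtain ⟨L, -, hL⟩ := C.wb_n2 B
  refine memLp_of_n2 (C.wb_meas hF h2 h3 ha hm i j a) ?_
  refine ((wb_comp measurableSet_ball (C.wbG F r₀ b i j) a).trans (hL hF h2 h3 i j)).trans_lt ?_
  have h0 : ∀ k, n2 univ (fun z => b i z (ee k)) < ⊤ := fun k => by
    rw [n2_eLp, Measure.restrict_univ]
    exact ENNReal.pow_lt_top (hm i k).2
  refine ENNReal.mul_lt_top (ENNReal.pow_lt_top ENNReal.ofReal_lt_top) ?_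
  refine (n2_le_add (g := fun z => b i z (ee 0)) (h := fun z => b i z (ee 1)) MeasurableSet.univ
    (hm i 0).1.restrict fun z _ => (ha i z).norm_le).trans_lt ?_
  exact ENNReal.add_lt_top.2 ⟨ENNReal.mul_lt_top ENNReal.ofNat_lt_top (h0 0),
    ENNReal.mul_lt_top ENNReal.ofNat_lt_top (h0 1)⟩

theorem wb_om (h3 : r ≤ 3) (α : C.I → M → C2 →L[ℝ] ℂ) {j : C.I} {S : Finset C.I}
    (hS : ∀ i p, p ∈ (C.ch j).source → p ∈ (C.ch i).source → i ∈ S) :
    ∀ z ∈ ball (0 : C2) r, C.om F α (C.glue F r₀ b) j z =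
      C.cmp (C.ch j) (α j) z - (∑ i ∈ S, C.wbG F r₀ b i j) z := by
  intro z hz
  obtain ⟨g1, -⟩ := C.symm_mem_U j (h3.trans (by norm_num)) (mem_ball_zero_iff.1 hz)
  ext1 v
  simp only [om, wbG, cmp, C.glue_eq fun i hi => hS i _ g1.1 hi, Finset.smul_sum,
    Finset.sum_apply, ContinuousLinearMap.comp_apply, sub_apply,
    sum_apply]

theorem wb {δ A : ℝ} (h1 : 1 < r₀) (h2 : r₀ < r) (h3 : r ≤ 3) (hδ : 0 < δ) (hA : 0 ≤ A)
    (B : ℝ) : ∃ K : ℝ, 0 ≤ K ∧ ∀ F, C.Fr F r B → ∀ c D α b, C.Dat F r δ c D α →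
      C.Rz F r r₀ δ c (A * D) α b → C.Wb F r δ c (K * D) α (C.glue F r₀ b) := by
  obtain ⟨m, hm⟩ := C.geo_nbr
  obtain ⟨L, L0, hL⟩ := C.wb_n2 B
  obtain ⟨L', L0', hL'⟩ := C.cmp_norm
  obtain ⟨K, K0, hK⟩ := n2_const r
  refine ⟨2 * (K * L' + m * (L * (A * Real.exp (2 * δ * C.R)))), by positivity,
    fun F hF c D α b hα hb => ?_⟩
  have hU : ∀ j, ∀ z ∈ ball (0 : C2) r, (C.ch j).symm z ∈ C.U j r ∧
      C.ch j ((C.ch j).symm z) = z := fun j z hz =>
    C.symm_mem_U j (h3.trans (by norm_num)) (mem_ball_zero_iff.1 hz)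
  have hD := hα.pos
  have a1 : ∀ j, ∀ z ∈ ball (0 : C2) r, Anti (α j ((C.ch j).symm z)) := fun j z hz =>
    (hα.sm j _ (hU j z hz).1).anti
  have a2 : ∀ j a, AEStronglyMeasurable (fun z => C.cmp (C.ch j) (α j) z (ee a))
      (volume.restrict (ball 0 r)) := fun j a => by
    refine ContinuousOn.aestronglyMeasurable (fun z hz => ?_) measurableSet_ball
    have h := ((hα.sm j _ (hU j z hz).1).cmp_sm (C.isCh j) (hU j z hz).1.1 (ee a)).self_of_nhds
    rw [(hU j z hz).2] at h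
    exact h.continuousAt.continuousWithinAt
  have a3 : ∀ j, n2 (ball 0 r) (C.cmp (C.ch j) (α j)) ≤
      ENNReal.ofReal (K * (L' * (D * C.wt δ c j))) ^ 2 := fun j => by
    refine hK _ _ _ fun z hz => ?_
    have h := (hL' j (α j) _ (C.U_mono j h3 (hU j z hz).1)).1
    rw [(hU j z hz).2] at h
    refine h.trans (mul_le_mul_of_nonneg_left ((hα.bd j _ (hU j z hz).1).trans ?_) L0'.le)
    exact mul_le_mul_of_nonneg_left (C.wt_mono (by linarith) c j) hD
  refine ⟨fun j z hz => ?_, fun j a => ?_, fun j => ?_⟩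
  · exact C.cmp_anti _ ((a1 j z hz).sub ((C.glue_anti hb.anti _).smul _))
  · obtain ⟨S, -, hS, -⟩ := hm j
    have g1 : MemLp (fun z => C.cmp (C.ch j) (α j) z (ee a)) 2 (volume.restrict (ball 0 r)) :=
      memLp_of_n2 (a2 j a) (((wb_comp measurableSet_ball _ a).trans (a3 j)).trans_lt
        (ENNReal.pow_lt_top ENNReal.ofReal_lt_top))
    have g2 : MemLp (fun z => ∑ i ∈ S, C.wbG F r₀ b i j z (ee a)) 2
        (volume.restrict (ball 0 r)) :=
      memLp_finsetSum S fun i _ => C.pb_meas hF h2.le h3 hb.anti hb.mem i j a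
    refine (g1.sub g2).ae_eq ?_
    filter_upwards [ae_restrict_mem measurableSet_ball] with z hz
    rw [C.wb_om h3 α hS z hz]
    simp only [Pi.sub_apply, Finset.sum_apply, sub_apply,
      sum_apply]
  · obtain ⟨S, hc, hS, hn⟩ := hm j
    have hw := (C.wt_pos δ c j).le
    have g1 : ∀ i ∈ S, n2 (ball 0 r) (C.wbG F r₀ b i j) ≤
        ENNReal.ofReal (L * (A * D * (Real.exp (2 * δ * C.R) * C.wt δ c j))) ^ 2 := fun i hi => by
      refine (hL hF h2.le h3 i j).trans ?_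
      rw [ENNReal.ofReal_mul L0, mul_pow]
      refine mul_le_mul_right ((hb.bd i).trans (pow_le_pow_left' (ENNReal.ofReal_le_ofReal ?_) 2)) _
      exact mul_le_mul_of_nonneg_left (C.wt_nbr hδ.le c (hn i hi)) (mul_nonneg hA hD)
    have g2 : n2 (ball 0 r) (∑ i ∈ S, C.wbG F r₀ b i j) ≤ ENNReal.ofReal
        (m * (L * (A * D * (Real.exp (2 * δ * C.R) * C.wt δ c j)))) ^ 2 := by
      refine (n2_sum S fun i _ => aesm_anti measurableSet_ball (fun z _ => C.wb_anti hb.anti i j z)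
        (C.wb_meas hF h2.le h3 hb.anti hb.mem i j)).trans ?_
      have hc' : (S.card : ℝ≥0∞) ≤ m := Nat.cast_le.2 hc
      rw [ENNReal.ofReal_mul (Nat.cast_nonneg m), ENNReal.ofReal_natCast, mul_pow, sq (m : ℝ≥0∞),
        mul_assoc]
      refine mul_le_mul' hc' ((Finset.sum_le_card_nsmul _ _ _ g1).trans ?_)
      rw [nsmul_eq_mul]
      exact mul_le_mul_left hc' _
    refine (n2_le_add (g := C.cmp (C.ch j) (α j)) (h := ∑ i ∈ S, C.wbG F r₀ b i j)
      measurableSet_ball (aesm_anti measurableSet_ball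
        (fun z hz => C.cmp_anti _ (a1 j z hz)) (a2 j)) fun z hz => ?_).trans ?_
    · rw [C.wb_om h3 α hS z hz]
      exact norm_sub_le _ _
    · refine (sq_add_le (by positivity) (by positivity) (a3 j) g2).trans_eq ?_
      congr 2
      ring

end Cov

end Vale.Agent.P267W
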