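import Vale.Agent.P267S.Wc
import Vale.Agent.P267W.Wb

/-! P267, compact surfaces: the atlas without drift, part Wc. -/

open scoped Manifold ContDiff Topology ENNReal Real

open Filter Metric Set MeasureTheory

noncomputable section

namespace Vale.Agent.P267W

open Vale.Agent.P267

set_option linter.unusedSectionVars false

variable {M : Type} [TopologicalSpace M] [ChartedSpace C2 M] [T2Space M]

namespace Cov
variable (C : Cov M)

theorem wc_d0 {f : C2 → ℂ} {z : C2} (h : f =ᶠ[𝓝 z] 0) (a : C2 →L[ℝ] ℂ) :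
    w2 a (dbar f z) = 0 := by
  rw [dbar_congr' h, dbar_hol' (F := 0) (differentiableAt_const (0 : ℂ))]
  simp [w2]

theorem wc_tend {i : C.I} {z : C2} (hz : z ∈ ball (0 : C2) 4) :
    Tendsto (C.ch i).symm (𝓝 z) (𝓝 ((C.ch i).symm z)) :=
  (C.ch i).continuousAt_symm (C.ch_target i ▸ hz)

theorem wc_cg {P : OpenPartialHomeomorph M C2} {α β : M → C2 →L[ℝ] ℂ} {z : C2}
    (h : α (P.symm z) = β (P.symm z)) : C.cmp P α z = C.cmp P β z := by
  simp only [cmp, h]

theorem wc_img {i j : C.I} {r s : ℝ} (hr : r ≤ 4) {z : C2} (hz : z ∈ ball (0 : C2) r)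
    (h : (C.ch i).symm z ∈ C.U j s) :
    z ∈ C.ch i '' (C.U i r ∩ C.U j s) ∧ z ∈ C.ch i '' (C.U j s ∩ C.U i r) :=
  have k := C.symm_mem_U i hr (mem_ball_zero_iff.1 hz)
  ⟨⟨_, ⟨k.1, h⟩, k.2⟩, ⟨_, ⟨h, k.1⟩, k.2⟩⟩

theorem wc_mv {F : C.I → M → ℂ} {r r₀ B : ℝ} (hF : C.Fr F r B) (h2 : r₀ ≤ r) (h3 : r ≤ 3)
    {i j : C.I} {η : M → ℂ} (h0 : ∀ p ∉ C.U j r, η =ᶠ[𝓝 p] 0)
    (hη : ∀ p ∈ C.U i r, SmAt (C.kf i / F i * η) p) {τ : C2 → ℂ}
    (hτ : ∀ z ∈ ball (0 : C2) r, C.du F η j z = τ z) {β : M → C2 →L[ℝ] ℂ}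
    (hβ : ∀ p ∈ C.U i r₀, Anti (β p)) {a : C2 → C2 →L[ℝ] ℂ}
    (ha : ∀ p ∈ C.U i r₀, C.cmp (C.ch i) (fun q => F i q • β q) (C.ch i p) = a (C.ch i p)) :
    ∫ z in ball (0 : C2) r₀, w2 (a z) (dbar (C.du F η i) z) =
      ∫ z in C.ch j '' (C.U i r₀ ∩ C.U j r),
        w2 (C.cmp (C.ch j) (fun q => F j q • β q) z) (dbar τ z) := by
  have hW := (C.isOpen_U i r₀).inter (C.isOpen_U j r)
  have oi := C.isOpen_img i hW fun p hp => hp.1.1
  have oj := C.isOpen_img j hW fun p hp => hp.2.1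
  rw [setIntegral_eq_of_subset_of_forall_sdiff_eq_zero (s := C.ch i '' (C.U i r₀ ∩ C.U j r))
    measurableSet_ball (by rintro _ ⟨p, hp, rfl⟩; exact mem_ball_zero_iff.2 hp.1.2)]
  · refine Eq.trans (setIntegral_congr_fun oi.measurableSet ?_) ((C.pair_int hF hW
      (inter_subset_inter_left _ (C.U_mono i h2)) (fun p hp => hη p (C.U_mono i h2 hp.1))
      fun p hp => hβ p hp.1).trans (setIntegral_congr_fun oj.measurableSet ?_))
    · rintro _ ⟨p, hp, rfl⟩
      simp only [ha p hp.1]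
    · rintro _ ⟨p, hp, rfl⟩
      simp only
      rw [dbar_congr' (G := τ)]
      filter_upwards [isOpen_ball.mem_nhds (mem_ball_zero_iff.2 hp.2.2)] using hτ
  · rintro z ⟨hz, hz'⟩
    refine wc_d0 ?_ _
    filter_upwards [C.wc_tend (i := i) (ball_subset_ball (by linarith) hz)
      (h0 _ fun h => hz' (C.wc_img (by linarith) hz h).1)] with w hw
    simp [du, show η _ = 0 from hw]

theorem wc_int {j : C.I} {W : Set M} (hW : IsOpen W) (hj : W ⊆ (C.ch j).source)
    {γ : M → C2 →L[ℝ] ℂ} (hγ : ∀ p ∈ W, C.SmF γ p) {τ : C2 → ℂ} (hτ : ContDiff ℝ ∞ τ)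
    (hc : HasCompactSupport τ) (hs : tsupport τ ⊆ C.ch j '' W) :
    IntegrableOn (fun z => w2 (C.cmp (C.ch j) γ z) (dbar τ z)) (C.ch j '' W) := by
  refine (ContinuousOn.integrableOn_compact hc fun z hz => ?_).of_forall_sdiff_eq_zero
    (C.isOpen_img j hW hj).measurableSet fun z hz => wc_d0 (notMem_tsupport_iff_eventuallyEq.1 hz.2) _
  obtain ⟨p, hp, rfl⟩ := hs hz
  have a := fun v => ((hγ p hp).cmp_sm (C.isCh j) (hj hp) v).self_of_nhds.continuousAt
  have b := fun v => (dbar_sm_apply (z := C.ch j p) hτ.contDiffAt v).continuousAt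
  exact (((a _).mul (b _)).sub ((a _).mul (b _))).continuousWithinAt

theorem wc_l {F : C.I → M → ℂ} {r r₀ B δ D : ℝ} {c : ℤ} {α : C.I → M → C2 →L[ℝ] ℂ}
    (h2 : r₀ ≤ r) (hF : C.Fr F r B) (hα : C.Dat F r δ c D α) {j l : C.I}
    {τ : C2 → ℂ} (hτ : ContDiff ℝ ∞ τ) (hc : HasCompactSupport τ)
    (hs : tsupport τ ⊆ C.ch j '' (C.U l r₀ ∩ C.U j r)) :
    ∫ z in C.ch j '' (C.U l r₀ ∩ C.U j r),
        w2 (C.cmp (C.ch j) (fun q => F j q • (F l q)⁻¹ • α l q) z) (dbar τ z) =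
      ∫ z in ball (0 : C2) r, w2 (C.cmp (C.ch j) (α j) z) (dbar τ z) := by
  have hW := (C.isOpen_U l r₀).inter (C.isOpen_U j r)
  have hj : C.U l r₀ ∩ C.U j r ⊆ (C.ch j).source := fun p hp => hp.2.1
  rw [setIntegral_eq_of_subset_of_forall_sdiff_eq_zero (s := C.ch j '' (C.U l r₀ ∩ C.U j r))
    measurableSet_ball (by rintro _ ⟨p, hp, rfl⟩; exact mem_ball_zero_iff.2 hp.2.2)
    fun z hz => wc_d0 (notMem_tsupport_iff_eventuallyEq.1 fun h => hz.2 (hs h)) _]
  simp only [smul_smul, ← div_eq_mul_inv]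
  have k := ibp_closed (C.isOpen_img j hW hj) (ϖ := C.cmp (C.ch j) (C.df F α j l)) (by
    rintro _ ⟨p, hp, rfl⟩
    obtain ⟨a, ha⟩ := hα.cl j l p ⟨hp.2, C.U_mono l h2 hp.1⟩
    exact ⟨_, (C.prim_iff hp.2.1).1 ha⟩) hτ hc hs
  rw [eq_comm, ← sub_eq_zero, ← integral_sub (C.wc_int hW hj (fun p hp => hα.sm j p hp.2) hτ hc hs)
    (C.wc_int hW hj (γ := fun q => (F j q / F l q) • α l q) (fun p hp => SmF.smul (f := F j / F l)
      (hF.hol j l p ⟨hp.2, C.U_mono l h2 hp.1⟩).smAt (hα.sm l p (C.U_mono l h2 hp.1))) hτ hc hs),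
    ← k]
  refine integral_congr_ae (.of_forall fun z => ?_)
  simp only [w2, cmp, df, ContinuousLinearMap.comp_apply, _root_.sub_apply]
  ring

theorem wc {F : C.I → M → ℂ} {r r₀ B δ D A : ℝ} {c : ℤ} {α : C.I → M → C2 →L[ℝ] ℂ}
    {b : C.I → C2 → C2 →L[ℝ] ℂ} (h1 : 1 < r₀) (h2 : r₀ < r) (h3 : r ≤ 3) (hF : C.Fr F r B)
    (hα : C.Dat F r δ c D α) (hb : C.Rz F r r₀ δ c A α b) :
    C.Wc F r α (C.glue F r₀ b) := by
  intro j τ hτ hc hs
  obtain ⟨η, hη⟩ : ∃ η : M → ℂ,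
    η = (C.U j r).indicator fun p => F j p / C.kf j p * τ (C.ch j p) := ⟨_, rfl⟩
  have r4 : r ≤ 4 := by linarith
  have e1 : ∀ p ∈ C.U j r, (C.kf j / F j * η) p = τ (C.ch j p) := fun p hp => by
    have := hF.ne j p hp
    have := C.kf_ne hp.1
    simp only [hη, Pi.mul_apply, Pi.div_apply, indicator_of_mem hp]
    field_simp
  have h0 : ∀ p ∉ C.U j r, η =ᶠ[𝓝 p] 0 := fun p hp => by
    have hK : IsCompact ((C.ch j).symm '' tsupport τ) :=
      IsCompact.image_of_continuousOn hc ((C.ch j).continuousOn_symm.mono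
        (C.ch_target j ▸ hs.trans (ball_subset_ball r4)))
    filter_upwards [hK.isClosed.isOpen_compl.mem_nhds (x := p) (by
      rintro ⟨z, hz, rfl⟩
      exact hp (C.symm_mem_U j r4 (mem_ball_zero_iff.1 (hs hz))).1)] with q hq
    by_cases h : q ∈ C.U j r
    · simp [hη, indicator_of_mem h, image_eq_zero_of_notMem_tsupport (f := τ) (x := C.ch j q)
        fun k => hq ⟨_, k, (C.ch j).left_inv h.1⟩]
    · simp [hη, indicator_of_notMem h]
  have e2 : ∀ z ∈ ball (0 : C2) r, C.du F η j z = τ z := fun z hz => by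
    have k := C.symm_mem_U j r4 (mem_ball_zero_iff.1 hz)
    exact (e1 _ k.1).trans (by rw [k.2])
  have hT : C.Tst F r η := by
    refine ⟨fun i p hp => ?_, C.R + |(j.2 : ℝ)| + 1, fun p hp => ?_⟩
    · by_cases h : p ∈ C.U j r
      · obtain ⟨B', hB'⟩ := hF.dual h3
        refine (hB'.sm_iff ⟨hp, h⟩ η).2 (((C.isCh j).sm_fun h.1
          (.of_forall fun z => hτ.contDiffAt)).congr ?_)
        filter_upwards [(C.isOpen_U j r).mem_nhds h] with q hq using (e1 q hq).symm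
      · refine smAt_zero.congr ?_
        filter_upwards [h0 p h] with q hq
        simp [hq]
    · refine (h0 p fun h => ?_).self_of_nhds
      have := C.t_ch h.1
      have := abs_sub (C.t p + j.2) j.2
      rw [add_sub_cancel_right] at this
      linarith
  obtain ⟨m, hm⟩ := C.geo_nbr
  obtain ⟨S, -, hS, -⟩ := hm j
  have key := hb.eq η hT S fun i hi p hp =>
    (h0 p fun h => hi (hS i p h.1 hp.1)).self_of_nhds
  have hρ : ∀ l, ContDiff ℝ ∞ (τ * (fun q => (C.rho l q : ℂ)) ∘ (C.ch j).symm) := fun l =>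
    cut_sm isOpen_ball (C.sm_ball r4 fun p _ => C.rho_sm l p) hτ hs
  have ia : ∀ τ' : C2 → ℂ, ContDiff ℝ ∞ τ' → HasCompactSupport τ' → tsupport τ' ⊆ ball 0 r →
      IntegrableOn (fun z => w2 (C.cmp (C.ch j) (α j) z) (dbar τ' z)) (ball 0 r) :=
    fun τ' a1 a2 a3 => C.img_U j r4 ▸ C.wc_int (C.isOpen_U j r) (fun p hp => hp.1) (hα.sm j) a1 a2
      ((C.img_U j r4).symm ▸ a3)
  have md : ∀ v, MemLp (fun z => dbar τ z v) 2 (volume.restrict (ball 0 r)) := fun v => by
    refine (Continuous.memLp_of_hasCompactSupport (continuous_iff_continuousAt.2 fun z =>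
      (dbar_sm_apply hτ.contDiffAt v).continuousAt) (hc.mono' fun z hz => ?_)).restrict _
    by_contra h
    exact hz (by
      simp only
      rw [dbar_congr' (notMem_tsupport_iff_eventuallyEq.1 h),
        dbar_hol' (F := 0) (differentiableAt_const (0 : ℂ))]
      rfl)
  have ib : ∀ i, IntegrableOn (fun z => w2 (C.cmp (C.ch j) (fun q => F j q • (C.U i r₀).indicator
      (fun q => (F i q)⁻¹ • C.pb i (b i) q) q) z) (dbar τ z)) (ball 0 r) := fun i =>
    ((C.pb_meas hF h2.le h3 hb.anti hb.mem i j 0).integrable_mul (md _)).sub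
      ((C.pb_meas hF h2.le h3 hb.anti hb.mem i j 1).integrable_mul (md _))
  have eb : ∀ z ∈ ball (0 : C2) r, ∑ i ∈ S, w2 (C.cmp (C.ch j) (fun q => F j q •
      (C.U i r₀).indicator (fun q => (F i q)⁻¹ • C.pb i (b i) q) q) z) (dbar τ z) =
      w2 (C.cmp (C.ch j) (fun q => F j q • C.glue F r₀ b q) z) (dbar τ z) := fun z hz => by
    simp only [w2, cmp, C.glue_eq fun i =>
      hS i _ (C.symm_mem_U j r4 (mem_ball_zero_iff.1 hz)).1.1, Finset.smul_sum,
      ContinuousLinearMap.comp_apply, _root_.sum_apply, Finset.sum_mul,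
      Finset.sum_sub_distrib]
  have L : ∀ l ∈ S, ∫ z in ball (0 : C2) r₀, w2 (C.cmp (C.ch l) (α l) z)
      (dbar (C.du F ((fun q => (C.rho l q : ℂ)) * η) l) z) = ∫ z in ball (0 : C2) r,
      w2 (C.cmp (C.ch j) (α j) z) (dbar (τ * (fun q => (C.rho l q : ℂ)) ∘ (C.ch j).symm) z) := by
    intro l _
    refine (C.wc_mv hF h2.le h3 (j := j) (β := fun q => (F l q)⁻¹ • α l q) (fun p hp => ?_)
      (fun p hp => ?_) (fun z hz => ?_)
      (fun p hp => Anti.smul (hα.sm l p (C.U_mono l h2.le hp)).anti _) fun p hp => C.wc_cg ?_).trans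
      (C.wc_l h2.le hF hα (hρ l) hc.mul_right fun z hz => ?_)
    · filter_upwards [h0 p hp] with q hq
      simp [hq]
    · rw [mul_left_comm]
      exact (C.rho_sm l p).mul (hT.sm l p hp)
    · rw [Pi.mul_apply, ← e2 z hz]
      simp only [du, Function.comp_apply, Pi.mul_apply]
      ring
    · rw [(C.ch l).left_inv hp.1, smul_inv_smul₀ (hF.ne l p (C.U_mono l h2.le hp))]
    · have hz' := hs (tsupport_mul_subset_left hz)
      by_contra h
      refine notMem_tsupport_iff_eventuallyEq.2 ?_ hz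
      filter_upwards [C.wc_tend (i := j) (ball_subset_ball r4 hz')
        (C.rho_ev h1 fun k => h (C.wc_img r4 hz' k).2)] with w hw
      simp [show C.rho l _ = 0 from hw]
  have R : ∀ i ∈ S, ∫ z in ball (0 : C2) r₀, w2 (b i z) (dbar (C.du F η i) z) =
      ∫ z in ball (0 : C2) r, w2 (C.cmp (C.ch j) (fun q => F j q •
        (C.U i r₀).indicator (fun q => (F i q)⁻¹ • C.pb i (b i) q) q) z) (dbar τ z) := by
    intro i _
    refine (C.wc_mv hF h2.le h3 h0 (hT.sm i) e2 (fun p hp => ?_) fun p hp => ?_).trans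
      (setIntegral_eq_of_subset_of_forall_sdiff_eq_zero measurableSet_ball ?_ fun z hz => ?_).symm
    · rw [indicator_of_mem hp]
      exact (C.pb_anti (hb.anti i _)).smul _
    · refine (C.wc_cg ?_).trans (C.cmp_pb (b i) hp.1)
      rw [(C.ch i).left_inv hp.1, indicator_of_mem hp,
        smul_inv_smul₀ (hF.ne i p (C.U_mono i h2.le hp))]
    · rintro _ ⟨p, hp, rfl⟩
      exact mem_ball_zero_iff.2 hp.2.2
    · simp [w2, cmp, indicator_of_notMem fun k => hz.2 (C.wc_img r4 hz.1 k).2]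
  rw [Finset.sum_congr rfl L, Finset.sum_congr rfl R, ← integral_finsetSum _ fun i _ => ib i,
    ← integral_finsetSum _ fun l _ => ia _ (hρ l) hc.mul_right (tsupport_mul_subset_left.trans hs),
    setIntegral_congr_fun measurableSet_ball eb,
    setIntegral_congr_fun (g := fun z => w2 (C.cmp (C.ch j) (α j) z) (dbar τ z))
      measurableSet_ball fun z hz => ?_, ← sub_eq_zero, ← integral_sub (ia τ hτ hc hs)
      (IntegrableOn.congr_fun (integrable_finsetSum S fun i _ => ib i) eb measurableSet_ball)] at key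
  · rw [← key]
    refine integral_congr_ae (.of_forall fun z => ?_)
    simp only [w2, om, cmp, ContinuousLinearMap.comp_apply, _root_.sub_apply]
    ring
  · have e : dbar τ z = ∑ l ∈ S, dbar (τ * (fun q => (C.rho l q : ℂ)) ∘ (C.ch j).symm) z := by
      rw [← dbar_sum' fun l _ => (hρ l).differentiable (by simp) z]
      refine dbar_congr' ?_
      filter_upwards [isOpen_ball.mem_nhds hz] with w hw
      simp only [Finset.sum_apply, Pi.mul_apply, Function.comp_apply, ← Finset.mul_sum,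
        ← Complex.ofReal_sum, C.rho_sum fun i =>
          hS i _ (C.symm_mem_U j r4 (mem_ball_zero_iff.1 hw)).1.1, Complex.ofReal_one, mul_one]
    simp only [e, w2, _root_.sum_apply, Finset.mul_sum, Finset.sum_sub_distrib]

end Cov

end Vale.Agent.P267W
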