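import Vale.Agent.P267S.SM3
import Vale.Agent.P267W.SM1

/-! P267, compact surfaces: the atlas without drift, part SM3. -/

open scoped Manifold ContDiff Topology

open Filter Metric Set

noncomputable section

namespace Vale.Agent.P267W

open Vale.Agent.P267

set_option linter.unusedSectionVars false

variable {M : Type} [TopologicalSpace M] [ChartedSpace C2 M] [T2Space M]

namespace Cov
variable (C : Cov M)

theorem normal {f : C.I → M → ℂ} {α : C.I → M → C2 →L[ℝ] ℂ} {r δ A : ℝ} (hr : 1 < r) (hδ : 0 ≤ δ)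
    (hf : ∀ i, ∀ p ∈ C.U i r, ‖f i p‖ ≤ A * C.wt δ 0 i)
    (hα : ∀ i, ∀ p ∈ C.U i r, ‖α i p‖ ≤ A * C.wt δ 0 i)
    (hp : ∀ i j, ∀ p ∈ C.U i r ∩ C.U j r, C.Prim (fun q => α i q - α j q) (f i - f j) p) :
    ∃ (a : C.I → M → ℂ) (B : ℝ), 0 ≤ B ∧ (∀ i, ∀ p ∈ C.U i r, SmAt (a i) p) ∧
      (∀ i, ∀ p ∈ C.U i r, ‖a i p‖ ≤ B * C.wt δ 0 i ∧ ‖C.db (a i) p‖ ≤ B * C.wt δ 0 i) ∧
      (∀ p (W : Finset C.I), (∀ i, p ∈ (C.ch i).source → i ∈ W) →
        ∑ i ∈ W, (C.rho i p : ℂ) * a i p = 0) ∧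
      ∀ i j, a i - a j = -(f i - f j) := by
  obtain ⟨m, hm⟩ := C.card_nb
  obtain ⟨L, hL, hw⟩ := C.wt_nb hδ
  obtain ⟨R, hR, hρ⟩ := C.db_rho
  have e0 : ∀ i q, q ∈ (C.ch i).source →
      -(f i q - ∑ l ∈ C.nb (C.idx q), (C.rho l q : ℂ) * f l q) =
        -∑ l ∈ C.nb i, (C.rho l q : ℂ) * (f i - f l) q := fun i q hq => by
    have h1 := C.sum_nb (p := q) (fun l => f l q) (fun l => C.mem_nb (C.ac_src q))
      fun l => C.mem_nb hq
    simp only [smul_eq_mul] at h1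
    simp only [Pi.sub_apply, mul_sub, Finset.sum_sub_distrib, ← Finset.sum_mul, h1,
      C.sum_rho fun l => C.mem_nb hq, one_mul]
  have e1 : ∀ i, ∀ p ∈ C.U i r, (-fun q => ∑ l ∈ C.nb i, (C.rho l q : ℂ) * (f i - f l) q) =ᶠ[𝓝 p]
      fun q => -(f i q - ∑ l ∈ C.nb (C.idx q), (C.rho l q : ℂ) * f l q) := fun i p hi =>
    mem_of_superset ((C.ch i).open_source.mem_nhds hi.1) fun q hq => (e0 i q hq).symm
  have s1 : ∀ i, ∀ p ∈ C.U i r, ∀ l, SmAt (fun q => (C.rho l q : ℂ) * (f i - f l) q) p :=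
    fun i p hi l => C.rho_mul_sm hr fun hl => (hp i l p ⟨hi, hl⟩).1
  have b0 : ∀ {x y : ℝ} {i l : C.I}, l ∈ C.nb i → x ≤ A * C.wt δ 0 i → y ≤ A * C.wt δ 0 l →
      x + y ≤ 2 * L * |A| * C.wt δ 0 i := fun {x y i l} hl hx hy => by
    have h1 := C.wt_pos δ 0 i
    have h2 := C.wt_pos δ 0 l
    have h3 := mul_le_mul_of_nonneg_right (le_abs_self A) h1.le
    have h4 := mul_le_mul_of_nonneg_right (le_abs_self A) h2.le
    have h5 := mul_le_mul_of_nonneg_left (hw 0 i l hl) (abs_nonneg A)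
    have h6 := mul_le_mul_of_nonneg_right hL (mul_nonneg (abs_nonneg A) h1.le)
    linarith
  have p0 : ∀ i, 0 ≤ 2 * L * |A| * C.wt δ 0 i := fun i => by
    have := C.wt_pos δ 0 i
    positivity
  have b1 : ∀ i, ∀ p ∈ C.U i r, ∀ l ∈ C.nb i, ‖(C.rho l p : ℂ) * (f i - f l) p‖ ≤
      (1 + R) * (2 * L * |A| * C.wt δ 0 i) ∧
      ‖C.db (fun q => (C.rho l q : ℂ) * (f i - f l) q) p‖ ≤
        (1 + R) * (2 * L * |A| * C.wt δ 0 i) := fun i p hi l hl => by
    have q0 := p0 i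
    by_cases h : p ∈ C.U l r
    · have h1 : ‖(f i - f l) p‖ ≤ 2 * L * |A| * C.wt δ 0 i :=
        (norm_sub_le _ _).trans (b0 hl (hf i p hi) (hf l p h))
      have h2 : ‖α i p - α l p‖ ≤ 2 * L * |A| * C.wt δ 0 i :=
        (norm_sub_le _ _).trans (b0 hl (hα i p hi) (hα l p h))
      have h3 := C.db_mul (C.rho_sm l p) (hp i l p ⟨hi, h⟩).1
      rw [(hp i l p ⟨hi, h⟩).2.self_of_nhds] at h3
      refine ⟨?_, (congrArg norm h3).trans_le ((norm_add_le _ _).trans ?_)⟩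
      · rw [norm_mul]
        exact mul_le_mul ((C.rho_le l p).trans (by linarith)) h1 (norm_nonneg _) (by linarith)
      · rw [norm_smul, norm_smul, add_mul, mul_comm R]
        exact add_le_add (mul_le_mul (C.rho_le l p) h2 (norm_nonneg _) zero_le_one)
          (mul_le_mul h1 (hρ l p) (norm_nonneg _) q0)
    · have h1 := C.rho_ev hr h
      rw [C.db_congr (h := fun _ => 0) (h1.mono fun q hq => by simp [hq]), C.db_const,
        h1.self_of_nhds]
      simp only [Complex.ofReal_zero, zero_mul, norm_zero, and_self]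
      positivity
  have b2 : ∀ {V : Type} [NormedAddCommGroup V] (i : C.I) (x : C.I → V),
      (∀ l ∈ C.nb i, ‖x l‖ ≤ (1 + R) * (2 * L * |A| * C.wt δ 0 i)) →
      ‖-∑ l ∈ C.nb i, x l‖ ≤ m * ((1 + R) * (2 * L * |A|)) * C.wt δ 0 i := fun i x hx => by
    rw [norm_neg]
    refine (norm_sum_le_of_le _ hx).trans (le_of_eq ?_)
    rw [Finset.sum_const, hm, nsmul_eq_mul]
    ring
  refine ⟨fun i q => -(f i q - ∑ l ∈ C.nb (C.idx q), (C.rho l q : ℂ) * f l q),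
    m * ((1 + R) * (2 * L * |A|)), by positivity, fun i p hi => ?_, fun i p hi => ⟨?_, ?_⟩,
    fun p W hW => ?_, fun i j => ?_⟩
  · refine SmAt.congr (SmAt.neg ?_) (e1 i p hi)
    rw [← Finset.sum_fn]
    exact SmAt.sum fun l _ => s1 i p hi l
  · exact (congrArg norm (e0 i p hi.1)).trans_le (b2 i _ fun l hl => (b1 i p hi l hl).1)
  · rw [← C.db_congr (e1 i p hi), C.db_neg, C.db_sum _ fun l _ => s1 i p hi l]
    exact b2 i _ fun l hl => (b1 i p hi l hl).2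
  · have h1 := C.sum_nb (p := p) (fun l => f l p) hW fun l => C.mem_nb (C.ac_src p)
    simp only [smul_eq_mul] at h1
    simp only [neg_sub, mul_sub, Finset.sum_sub_distrib, ← Finset.sum_mul, h1, C.sum_rho hW,
      one_mul, sub_self]
  · funext q
    simp only [Pi.sub_apply, Pi.neg_apply]
    ring

end Cov

end Vale.Agent.P267W
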