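import Vale.Agent.P267W.S2
import Vale.Agent.P267W.SM2
import Vale.Agent.P267W.SM3

/-! P267, compact surfaces: holomorphic structures on smooth bundles. -/

open scoped Manifold ContDiff Topology
open Filter Metric Set

noncomputable section

namespace Vale.Agent.P267W

open Vale.Agent.P267

set_option linter.unusedSectionVars false

variable {M : Type} [TopologicalSpace M] [ChartedSpace C2 M] [T2Space M]

namespace Cov
variable (C : Cov M)

theorem sm_hol {ψ h : M → ℂ} {β : M → C2 →L[ℝ] ℂ} {p : M} (hψ : SmAt ψ p) (hh : C.Prim β h p)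
    (e : ∀ᶠ q in 𝓝 p, ψ q ≠ 0 ∧ β q = (ψ q)⁻¹ • C.db ψ q) :
    HolAt (ψ * fun q => Complex.exp ((-h) q)) p := by
  refine C.hol_of_db (hψ.mul hh.1.neg.exp) ?_
  filter_upwards [e, hh.2, C.sm_ev hψ, C.sm_ev hh.1] with q h1 h2 h3 h4
  rw [C.db_mul h3 h4.neg.exp, C.db_comp h4.neg (Complex.hasDerivAt_exp _), C.db_neg, h2, h1.2,
    smul_neg, smul_neg, smul_smul, smul_smul, mul_right_comm, mul_inv_cancel₀ h1.1, one_mul,
    neg_add_cancel]

theorem s2_one (hN : ∀ s, Sec C.κ s → s = 0) : ∃ K : ℝ, C.S2 1 3 (5 / 2) 1 K := by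
  obtain ⟨K, -, hK⟩ := C.s2 (G := fun _ => 1) (r := 3) (r' := 5 / 2) (B := 1) (δ := 1)
    (fun _ => ⟨fun _ _ _ => one_ne_zero, fun _ _ _ _ => by
      rw [Pi.one_apply, Pi.one_apply, div_one]
      exact holAt_one, fun _ _ _ => by simp⟩)
    (fun φ k F _ hF s δ hs _ => hN s fun p => by
      refine (hs _ p (C.mem_U_idx p)).congr ?_
      filter_upwards [(C.isOpen_U (C.idx p) 1).mem_nhds (C.mem_U_idx p)] with q hq
      have e : F (C.idx p) q = 1 :=
        tendsto_nhds_unique (hF _ q (C.U_mono _ (by norm_num) hq)) tendsto_const_nhds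
      simp only [Pi.mul_apply, Pi.div_apply, e, div_one, κ])
    one_pos (by norm_num) (by norm_num) le_rfl
  exact ⟨K, hK.exists.choose_spec⟩

theorem hol_str (hN : ∀ s, Sec C.κ s → s = 0) {Φ : C.I → M → ℂ}
    (hne : ∀ i, ∀ p ∈ (C.ch i).source, Φ i p ≠ 0)
    (hsm : ∀ i j, ∀ p ∈ (C.ch i).source ∩ (C.ch j).source, SmAt (Φ i / Φ j) p) {T : ℤ}
    (hone : ∀ i : C.I, T ≤ |i.2| → ∀ p ∈ (C.ch i).source, Φ i p = 1) :
    ∃ a : C.I → M → ℂ, (∀ i, ∀ p ∈ C.U i (5 / 2), SmAt (a i) p) ∧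
      ∀ i j, ∀ p ∈ C.U i (5 / 2) ∩ C.U j (5 / 2),
        HolAt (fun q => Φ i q * Complex.exp (a i q) / (Φ j q * Complex.exp (a j q))) p := by
  obtain ⟨K, h2⟩ := C.s2_one hN
  obtain ⟨D, α, hD, hα⟩ := C.conn hne hsm hone 1
  obtain ⟨f, hf, hf'⟩ := h2 0 D α hD
  have hp : ∀ j l, ∀ p ∈ C.U j (5 / 2) ∩ C.U l (5 / 2),
      C.Prim (fun q => α j q - α l q) (f j - f l) p := fun j l p hp =>
    (hf' j l p hp).congr (Eventually.of_forall fun q => by simp [df])
      (Eventually.of_forall fun q => by simp)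
  obtain ⟨a, B, hB, a1, -, -, a4⟩ := C.normal (A := |K * D| + D) (by norm_num) zero_le_one
    (fun j p hp => (hf j p hp).trans (mul_le_mul_of_nonneg_right
      (by linarith [le_abs_self (K * D), hD.pos]) (C.wt_pos _ _ _).le))
    (fun j p hp => (hD.bd j p (C.U_mono j (by norm_num) hp)).trans (mul_le_mul
      (by linarith [abs_nonneg (K * D)]) (C.wt_mono (by linarith) _ _) (C.wt_pos _ _ _).le
      (by linarith [abs_nonneg (K * D), hD.pos]))) hp
  refine ⟨a, a1, fun j l p hp' => ?_⟩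
  refine (C.sm_hol (hsm j l p ⟨hp'.1.1, hp'.2.1⟩) (hp j l p hp') ?_).congr
    (Eventually.of_forall fun q => ?_)
  · filter_upwards [(C.ch j).open_source.mem_nhds hp'.1.1,
      (C.ch l).open_source.mem_nhds hp'.2.1] with q h1 h3
    exact ⟨div_ne_zero (hne j q h1) (hne l q h3), hα j l q ⟨h1, h3⟩⟩
  · rw [← a4 j l]
    simp only [Pi.mul_apply, Pi.div_apply, Pi.sub_apply, Complex.exp_sub]
    rw [mul_div_mul_comm]

end Cov

end Vale.Agent.P267W
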